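import Crest.Agent.X212.Tau19.Tau
import Crest.Agent.X212.Line51.Chi
import Crest.Agent.X212.Orx52.Pos
import Crest.Agent.X212.Line51.Rod

-- ▼ part X212/Tau19/Lin
section

/-!
# X212 / Tau19, part Lin (helper19): lines under the twist

* `S.Eqv T p μ E` : `E` is a unit section of `Ψ^* p` of weight `μ`; `exists_uni` : lines of weights `μ`, `-μ`;
* `S.Fr2 T p μ s₁ s₂` : frames over the two vertex charts;
* `exists_uni_tor` : the version with characters (toric frames off the axis).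
-/

set_option autoImplicit false
set_option linter.unusedSectionVars false

open Set Filter Topology Function Matrix
open scoped ContDiff Manifold ComplexConjugate

noncomputable section

namespace Crest.Agent.X212.Tau19

open Crest.Agent.X212.Glue52 Crest.Agent.X212.Pj41
open Crest.Agent.X212.Rod53 hiding Uni
open Crest.Agent.X212.Line51 hiding dual

variable {EN HN : Type} [NormedAddCommGroup EN] [NormedSpace ℝ EN] [FiniteDimensional ℝ EN]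
  [TopologicalSpace HN] {IN : ModelWithCorners ℝ EN HN} [IN.Boundaryless]
  {N : Type} [TopologicalSpace N] [ChartedSpace HN N] [IsManifold IN ∞ N] [T2Space N]
  {κ l : Type*} [Fintype κ] [Fintype l] {n e : ℕ} {k R r : ℝ} {m : C3}

theorem piso_smul {u : Matrix l κ ℂ} {p : Matrix κ κ ℂ} {q : Matrix l l ℂ} (h : PIso u p q) (g : Circle) :
    PIso ((g : ℂ) • u) p q := by
  have e : star (g : ℂ) * g = 1 := by
    rw [Complex.star_def, ← Circle.coe_inv_eq_conj, ← Circle.coe_mul, inv_mul_cancel, Circle.coe_one]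
  exact ⟨by rw [conjTranspose_smul, Matrix.smul_mul, Matrix.mul_smul, smul_smul, e, one_smul, h.src],
    by rw [conjTranspose_smul, Matrix.smul_mul, Matrix.mul_smul, smul_smul, mul_comm, e, one_smul, h.tgt],
    by rw [Matrix.smul_mul, h.idem]⟩

theorem ct_smul (g : Circle) (u : Matrix l κ ℂ) : ((g : ℂ) • u)ᴴ = ((g⁻¹ : Circle) : ℂ) • uᴴ := by
  rw [conjTranspose_smul, Complex.star_def, Circle.coe_inv_eq_conj]

theorem csmul_smul (g h : Circle) (u : Matrix l κ ℂ) :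
    (g : ℂ) • (h : ℂ) • u = ((g * h : Circle) : ℂ) • u := by rw [smul_smul, Circle.coe_mul]

theorem smul_mul_ct {j : Type*} [Fintype j] (g h : Circle) (u : Matrix l j ℂ) (w : Matrix κ j ℂ) :
    ((g : ℂ) • u) * ((h : ℂ) • w)ᴴ = ((g * h⁻¹ : Circle) : ℂ) • (u * wᴴ) := by
  rw [ct_smul, Matrix.smul_mul, Matrix.mul_smul, csmul_smul]

namespace Sph

variable {v : ℝ → Z2} {a b a' : Z2} {c : ℝ} (S : Sph v a b a' n c k R) (T : Tb IN N)

/-- an equivariant unit section of weight `μ` -/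
structure Eqv (p : X T v → Matrix κ κ ℂ) (μ : ℤ) (E : C3 → Matrix κ Unit ℂ) : Prop where
  sm : ∀ i j, SmD 𝓘(ℝ, ℂ) (Dm k R) fun m => E m i j
  iso : ∀ m ∈ Dm k R, PIso (E m) 1 (p (S.Ψ T m))
  wt : ∀ l, ∀ m ∈ Dm k R, E (act n l m) = ((l ^ μ : Circle) : ℂ) • E m

variable {p : X T v → Matrix κ κ ℂ} {q : X T v → Matrix l l ℂ} {μ : ℤ}

/-- **lines of opposite weights are exchanged by the twist** -/
theorem exists_uni (hn : n * e = 2) (hr : r ∈ Ioo (k ^ 2 / 2) R) {E : C3 → Matrix κ Unit ℂ}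
    {E' : C3 → Matrix l Unit ℂ} (hE : S.Eqv T p μ E) (hE' : S.Eqv T q (-μ) E') {O : Set (X T v)}
    {u : X T v → Matrix κ l ℂ} (hu : Uni (𝓡 4) q p u (O \ S.K T (rh k r)))
    (he : ∀ m ∈ Dm k R, rh k r < ‖m.2‖ ^ 2 →
      u (S.Ψ T m) = (((dir m.2 ^ e) ^ μ : Circle) : ℂ) • (E m * (E' m)ᴴ)) :
    ∃ U, Uni (𝓡 4) q (fun x => p (S.tau T hn hr x)) U O ∧ ∀ x ∉ S.K T (rh k r), U x = u x := by
  have hρ := rh_pos S.pos hr.1
  have h1 : (1 : ℝ) * 1 = 1 := one_mul 1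
  have hF : ∀ l, ∀ m ∈ Dm k R, E (tt e (rh k r) 1 (act n l m)) * (E' (act n l m))ᴴ =
      E (tt e (rh k r) 1 m) * (E' m)ᴴ := fun l m h => by
    rw [tt_act hn, hE.wt _ _ (Dm.tt hρ h1 h), hE'.wt _ _ h, smul_mul_ct]
    simp
  have hd : ∀ m ∈ Dm k R, rh k r < ‖m.2‖ ^ 2 → E (tt e (rh k r) 1 m) * (E' m)ᴴ = u (S.Ψ T m) :=
    fun m h hm => by rw [tt_large hn hρ hm.le, hE.wt _ _ h, he m h hm, Matrix.smul_mul]
  have off := fun x => S.dsc_off T (d := u) hF hd (x := x)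
  refine ⟨_, ⟨fun x hx => ?_, fun x hx => ?_⟩, off⟩ <;> by_cases h : x ∈ S.K T (rh k r)
  · obtain ⟨m, h, rfl⟩ := h
    obtain ⟨s, s1, s2⟩ := S.sec T (S.K_dom hr.2 h)
    have s3 := s2.mono fun _ t => t.1
    have k1 : MSm (𝓡 4) (fun y => E (tt e (rh k r) 1 (s y))) (S.Ψ T m) := fun i j =>
      ((hE.sm i j).comp (contDiff_tt e hρ 1) fun _ => Dm.tt hρ h1).cm s1 s3
    have k2 : MSm (𝓡 4) (fun y => E' (s y)) (S.Ψ T m) := fun i j => (hE'.sm i j).cm s1 s3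
    exact (k1.mul k2.ct).congr (s2.mono fun y t => (congrArg _ t.2).symm.trans (S.dsc_Ψ T u hF t.1))
  · exact (hu.sm x ⟨hx, h⟩).congr
      (eventually_of_mem ((S.isCompact_K T hr.2).isClosed.isOpen_compl.mem_nhds h) off)
  · obtain ⟨m, h, rfl⟩ := h
    have hm := S.K_dom hr.2 h
    rw [S.dsc_Ψ T u hF hm, S.tau_Ψ T hn hr hm]
    exact (hE'.iso m hm).symm.trans (hE.iso _ (Dm.tt hρ h1 hm))
  · rw [off x h, S.tau_off T hn hr h]
    exact hu.iso x ⟨hx, h⟩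

/-- frames over the two vertex charts with transition function `(z₂ / z₁) ^ μ` -/
structure Fr2 (p : X T v → Matrix κ κ ℂ) (μ : ℤ) (s₁ s₂ : X T v → Matrix κ Unit ℂ) : Prop where
  f1 : ∀ m ∈ Dm k R, m.1.2 ≠ 0 → MSm (𝓡 4) s₁ (S.Ψ T m) ∧ PIso (s₁ (S.Ψ T m)) 1 (p (S.Ψ T m))
  f2 : ∀ m ∈ Dm k R, m.1.1 ≠ 0 → MSm (𝓡 4) s₂ (S.Ψ T m) ∧ PIso (s₂ (S.Ψ T m)) 1 (p (S.Ψ T m))
  tr : ∀ m ∈ Dm k R, m.1.1 ≠ 0 → m.1.2 ≠ 0 →
    s₂ (S.Ψ T m) = (((dir m.1.2 * (dir m.1.1)⁻¹) ^ μ : Circle) : ℂ) • s₁ (S.Ψ T m)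

open Classical in
/-- the equivariant section of a pair of frames -/
def eqs (μ : ℤ) (s₁ s₂ : X T v → Matrix κ Unit ℂ) (m : C3) : Matrix κ Unit ℂ :=
  if m.1.1 = 0 then ((dir m.1.2 ^ μ : Circle) : ℂ) • s₁ (S.Ψ T m)
  else ((dir m.1.1 ^ μ : Circle) : ℂ) • s₂ (S.Ψ T m)

variable {s₁ s₂ : X T v → Matrix κ Unit ℂ}

theorem eqs_2 (h : m.1.1 ≠ 0) : S.eqs T μ s₁ s₂ m = ((dir m.1.1 ^ μ : Circle) : ℂ) • s₂ (S.Ψ T m) := if_neg h

variable {S T}

theorem Fr2.eqs_1 (F : S.Fr2 T p μ s₁ s₂) (hm : m ∈ Dm k R) (h : m.1.2 ≠ 0) :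
    S.eqs T μ s₁ s₂ m = ((dir m.1.2 ^ μ : Circle) : ℂ) • s₁ (S.Ψ T m) := by
  by_cases h1 : m.1.1 = 0
  · exact if_pos h1
  · rw [S.eqs_2 T h1, F.tr m hm h1 h, csmul_smul, ← mul_zpow, mul_comm, inv_mul_cancel_right]

theorem Fr2.eqv (F : S.Fr2 T p μ s₁ s₂) : S.Eqv T p μ (S.eqs T μ s₁ s₂) := by
  have key : ∀ (f : C3 → ℂ) (s : X T v → Matrix κ Unit ℂ) (m : C3), m ∈ Dm k R → ContDiff ℝ ∞ f → f m ≠ 0 →
      MSm (𝓡 4) s (S.Ψ T m) → (∀ y ∈ Dm k R, f y ≠ 0 →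
        S.eqs T μ s₁ s₂ y = ((dir (f y) ^ μ : Circle) : ℂ) • s (S.Ψ T y)) → ∀ i j,
      ∃ g, ContMDiffAt 𝓘(ℝ, C3) 𝓘(ℝ, ℂ) ∞ g m ∧ ∀ᶠ y in 𝓝 m, y ∈ Dm k R → S.eqs T μ s₁ s₂ y i j = g y := by
    intro f s m hm hf h0 hs he i j
    obtain ⟨g, g1, g2⟩ := S.smD T m hm
    refine ⟨fun y => ((dir (f y) ^ μ : Circle) : ℂ) * s (g y) i j,
      cm_mul (cd_dir hf.contDiffAt h0 μ).contMDiffAt
        (ContMDiffAt.comp m (g := fun x => s x i j) (g2.self_of_nhds hm ▸ hs i j) g1), ?_⟩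
    filter_upwards [g2, hf.continuous.continuousAt.eventually_ne h0] with y h1 h2 h3
    rw [he y h3 h2, h1 h3]
    rfl
  have dl : ∀ (l : Circle) {z : ℂ}, z ≠ 0 → dir (l * z) = l * dir z := fun l z h => by
    rw [mul_comm, dir_mul_circle h, mul_comm]
  refine ⟨fun i j m hm => ?_, fun m hm => ?_, fun l m hm => ?_⟩ <;> by_cases h : m.1.1 = 0
  · exact key (fun y => y.1.2) s₁ m hm contDiff_snd.fst' (hm.1.ne h) (F.f1 m hm (hm.1.ne h)).1
      (fun y h1 h2 => F.eqs_1 h1 h2) i j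
  · exact key (fun y => y.1.1) s₂ m hm contDiff_fst.fst' h (F.f2 m hm h).1 (fun y _ h2 => S.eqs_2 T h2) i j
  · rw [F.eqs_1 hm (hm.1.ne h)]
    exact piso_smul (F.f1 m hm (hm.1.ne h)).2 _
  · rw [S.eqs_2 T h]
    exact piso_smul (F.f2 m hm h).2 _
  · have h2 := hm.1.ne h
    rw [F.eqs_1 hm h2, F.eqs_1 (Dm.act hm l) (mul_ne_zero l.coe_ne_zero h2), S.Ψ_act T l hm, csmul_smul,
      ← mul_zpow, ← dl l h2]
    rfl
  · rw [S.eqs_2 T h, S.eqs_2 T (m := act n l m) (mul_ne_zero l.coe_ne_zero h), S.Ψ_act T l hm, csmul_smul,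
      ← mul_zpow, ← dl l h]
    rfl

variable (S T)

theorem Ψ_mem_off (hm : m ∈ Dm k R) : S.Ψ T m ∈ off T v ↔ m.1.1 ≠ 0 ∧ m.1.2 ≠ 0 ∧ m.2 ≠ 0 := by
  by_cases h : m.1.1 = 0
  · rw [S.Ψ_1 T hm (hm.1.ne h), vtx_mem_off _ (S.mem1 hm (hm.1.ne h))]
    exact iff_of_false (fun t => t.1 ((V22_ne (n := n) (m := sw m) S.pos).2 h)) fun t => t.1 h
  · rw [S.Ψ_2 T h, vtx_mem_off _ (S.mem2 hm h), Ne, Ne, V21_ne S.pos h, V22_ne S.pos]
    tauto

theorem dir_V21 (hk : 0 < k) (h : m.1.1 ≠ 0) (h' : m.2 ≠ 0) :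
    dir (V2 n k m).1 = dir m.1.1 ^ n * dir m.2 := by
  have e : (V2 n k m).1 = ((k * ‖m.1.1‖ : ℝ) : ℂ) * (m.2 * (dir m.1.1 ^ n : Circle)) := by
    simp only [V2]
    push_cast
    ring
  rw [e, dir_pos_mul (mul_pos hk (norm_pos_iff.2 h)), dir_mul_circle h', mul_comm]

include S in
theorem dot_sum (η : Z2) : dot η a + dot η a' = n * dot η b := by
  rw [S.sum]
  simp only [dot, Prod.fst_add, Prod.snd_add, Prod.fst_neg, Prod.snd_neg, Prod.smul_fst, Prod.smul_snd,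
    smul_eq_mul]
  ring

/-- the characters in the model -/
theorem chi_Ψ (η : Z2) (h1 : m.1.1 ≠ 0) (h2 : m.1.2 ≠ 0) (h3 : m.2 ≠ 0) : chi T v η (S.Ψ T m) =
    dir m.1.1 ^ dot η a * dir m.1.2 ^ dot η a' * dir m.2 ^ dot η b := by
  rw [S.Ψ_2 T h1, chi_vtx _ (mt (V21_ne S.pos h1).1 h3) (mt (V22_ne S.pos).1 h2), dir_V21 S.pos h1 h3,
    dir_V22 S.pos h2, eq_sub_of_add_eq (S.dot_sum η), mul_zpow, mul_zpow, ← zpow_natCast,
    ← _root_.zpow_mul, _root_.zpow_sub, _root_.inv_zpow]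
  ac_rfl

/-- an identity that holds off the axis holds everywhere -/
theorem eq_of_off {Z : Type*} [TopologicalSpace Z] [T2Space Z] {f g : C3 → Z} (hm : m ∈ Dm k R)
    (hf : ContinuousWithinAt f (Dm k R) m) (hg : ContinuousWithinAt g (Dm k R) m)
    (h : ∀ᶠ y in 𝓝 m, y ∈ Dm k R → S.Ψ T y ∈ off T v → f y = g y) : f m = g m := by
  obtain ⟨s, s1, s2⟩ := S.sec T hm
  obtain ⟨l, hl⟩ := S.orbit T s2.self_of_nhds.1 hm s2.self_of_nhds.2
  have c0 : ContinuousAt (fun x => act n l (s x)) (S.Ψ T m) :=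
    ContinuousAt.comp (g := act n l) (by unfold act; fun_prop) s1.continuousAt
  have c1 : Tendsto (fun x => act n l (s x)) (𝓝 (S.Ψ T m)) (𝓝 m) := by
    rw [ContinuousAt, ← hl] at c0
    exact c0
  have c2 : Tendsto (fun x => act n l (s x)) (𝓝 (S.Ψ T m)) (𝓝[Dm k R] m) :=
    tendsto_nhdsWithin_iff.2 ⟨c1, s2.mono fun _ t => Dm.act t.1 l⟩
  refine tendsto_nhds_unique_of_frequently_eq (hf.tendsto.comp c2) (hg.tendsto.comp c2)
    (((mem_closure_iff_frequently.1 (dense_off _)).and_eventually (s2.and (c1.eventually h))).mono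
      fun x t => t.2.2 (Dm.act t.2.1.1 l) ?_)
  rw [S.Ψ_act T l t.2.1.1, t.2.1.2]
  exact t.1

/-- the region of the left vertex chart -/
def O1 : Set (X T v) := S.Ψ T '' {m | m ∈ Dm k R ∧ m.1.2 ≠ 0}

/-- the region of the right vertex chart -/
def O2 : Set (X T v) := S.Ψ T '' {m | m ∈ Dm k R ∧ m.1.1 ≠ 0}

theorem isOpen_O {f : C3 → ℂ} (hf : Continuous f) (h : ∀ l m, f (act n l m) = l * f m) :
    IsOpen (S.Ψ T '' {m | m ∈ Dm k R ∧ f m ≠ 0}) := isOpen_iff_mem_nhds.2 <| by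
  rintro _ ⟨m, hm, rfl⟩
  obtain ⟨s, s1, s2⟩ := S.sec T hm.1
  obtain ⟨l, hl⟩ := S.orbit T hm.1 s2.self_of_nhds.1 s2.self_of_nhds.2.symm
  have h0 : f (s (S.Ψ T m)) ≠ 0 := by
    rw [hl, h]
    exact mul_ne_zero l.coe_ne_zero hm.2
  filter_upwards [s2, (hf.continuousAt.comp s1.continuousAt).eventually_ne h0] with x t1 t2
  exact ⟨s x, ⟨t1.1, t2⟩, t1.2⟩

theorem isOpen_O1 : IsOpen (S.O1 T) := S.isOpen_O T (by fun_prop) fun _ _ => rfl
theorem isOpen_O2 : IsOpen (S.O2 T) := S.isOpen_O T (by fun_prop) fun _ _ => rfl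

theorem time_O1 {x : X T v} (h : x ∈ S.O1 T) (h' : x ∉ off T v) :
    T.time v x ∈ Ioo (c - R) (c + k ^ 2 / 2) := by
  obtain ⟨m, ⟨hm, h2⟩, rfl⟩ := h
  rw [S.Ψ_mem_off T hm] at h'
  have h3 := lt_tmo (m := sw m) S.pos hm.1.sw h2 (by
    by_contra t
    exact h' ⟨fun e => t (Or.inr e), h2, fun e => t (Or.inl e)⟩)
  have h4 := tmo_lt (Dm.sw hm)
  rw [tmo_sw] at h3 h4
  rw [S.time_Ψ T hm]
  constructor <;> linarith

theorem time_O2 {x : X T v} (h : x ∈ S.O2 T) (h' : x ∉ off T v) :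
    T.time v x ∈ Ioo (c - k ^ 2 / 2) (c + R) := by
  obtain ⟨m, ⟨hm, h2⟩, rfl⟩ := h
  rw [S.Ψ_mem_off T hm] at h'
  have h3 := lt_tmo S.pos hm.1 h2 (by
    by_contra t
    exact h' ⟨h2, fun e => t (Or.inr e), fun e => t (Or.inl e)⟩)
  rw [S.time_Ψ T hm]
  constructor <;> linarith [tmo_lt hm]

end Sph

/-- `χ_η s` extends over `U` as the unit frame `t` -/
structure Xt {v : ℝ → Z2} (T : Tb IN N) (p : X T v → Matrix κ κ ℂ) (s : X T v → Matrix κ Unit ℂ) (η : Z2)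
    (t : X T v → Matrix κ Unit ℂ) (U : Set (X T v)) : Prop where
  uni : Uni (𝓡 4) (fun _ => 1) p t U
  eq : ∀ x ∈ U, x ∈ off T v → t x = (chi T v η x : ℂ) • s x

namespace Sph

variable {v : ℝ → Z2} {a b a' : Z2} {c : ℝ} (S : Sph v a b a' n c k R) (T : Tb IN N)
  {p : X T v → Matrix κ κ ℂ} {q : X T v → Matrix l l ℂ} {s t₁ t₂ : X T v → Matrix κ Unit ℂ}
  {s' t₁' t₂' : X T v → Matrix l Unit ℂ} {η₁ η₂ η₁' η₂' : Z2}

theorem cwa {j : Type*} [Fintype j] {u : X T v → Matrix κ j ℂ} (hm : m ∈ Dm k R) (hu : MSm (𝓡 4) u (S.Ψ T m)) :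
    ContinuousWithinAt (fun y => u (S.Ψ T y)) (Dm k R) m :=
  (msm_cont hu).self_of_nhds.comp_continuousWithinAt ((S.smD T).continuousOn m hm)

theorem fr2_of (h1 : Xt T p s η₁ t₁ (S.O1 T)) (h2 : Xt T p s η₂ t₂ (S.O2 T)) (hb : dot η₁ b = dot η₂ b) :
    S.Fr2 T p (dot η₂ a' - dot η₁ a') t₁ t₂ := by
  refine ⟨fun m hm h => ⟨h1.uni.sm _ ⟨m, ⟨hm, h⟩, rfl⟩, h1.uni.iso _ ⟨m, ⟨hm, h⟩, rfl⟩⟩,
    fun m hm h => ⟨h2.uni.sm _ ⟨m, ⟨hm, h⟩, rfl⟩, h2.uni.iso _ ⟨m, ⟨hm, h⟩, rfl⟩⟩, fun m hm k1 k2 => ?_⟩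
  have d1 := (cm_dir (f := fun y : C3 => y.1.1) contDiff_fst.fst'.contMDiff.contMDiffAt k1)
  have d2 := (cm_dir (f := fun y : C3 => y.1.2) contDiff_snd.fst'.contMDiff.contMDiffAt k2)
  refine S.eq_of_off T (f := fun y => t₂ (S.Ψ T y)) (g := fun y =>
      (((dir y.1.2 * (dir y.1.1)⁻¹) ^ (dot η₂ a' - dot η₁ a') : Circle) : ℂ) • t₁ (S.Ψ T y)) hm
    (S.cwa T hm (h2.uni.sm _ ⟨m, ⟨hm, k1⟩, rfl⟩))
    ((cm_coe (cm_zpow (d2.mul d1.inv) _)).continuousAt.continuousWithinAt.smul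
      (S.cwa T hm (h1.uni.sm _ ⟨m, ⟨hm, k2⟩, rfl⟩))) (Eventually.of_forall fun y hy ho => ?_)
  obtain ⟨o1, o2, o3⟩ := (S.Ψ_mem_off T hy).1 ho
  rw [h1.eq _ ⟨y, ⟨hy, o2⟩, rfl⟩ ho, h2.eq _ ⟨y, ⟨hy, o1⟩, rfl⟩ ho, csmul_smul, S.chi_Ψ T _ o1 o2 o3,
    S.chi_Ψ T _ o1 o2 o3, eq_sub_of_add_eq (S.dot_sum η₁), eq_sub_of_add_eq (S.dot_sum η₂), hb]
  congr 2
  simp only [mul_zpow, _root_.zpow_sub, _root_.inv_zpow]
  apply Circle.ext
  simp only [Circle.coe_mul, Circle.coe_inv, Circle.coe_zpow]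
  have := (dir y.1.1).coe_ne_zero
  have := (dir y.1.2).coe_ne_zero
  field_simp

theorem Eqv.cwa {μ : ℤ} {E : C3 → Matrix κ Unit ℂ} (h : S.Eqv T p μ E) (hm : m ∈ Dm k R) :
    ContinuousWithinAt E (Dm k R) m :=
  continuousWithinAt_pi.2 fun i => continuousWithinAt_pi.2 fun j => (h.sm i j).continuousOn m hm

/-- the hypothesis of `exists_uni` is tested off the axis -/
theorem eq_large {μ ν : ℤ} {E : C3 → Matrix κ Unit ℂ} {E' : C3 → Matrix l Unit ℂ} (hE : S.Eqv T p μ E)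
    (hE' : S.Eqv T q ν E') {ρ : ℝ} (h0 : 0 < ρ) {u : X T v → Matrix κ l ℂ} (hm : m ∈ Dm k R)
    (hρ : ρ < ‖m.2‖ ^ 2) (hu : MSm (𝓡 4) u (S.Ψ T m))
    (he : ∀ y ∈ Dm k R, ρ < ‖y.2‖ ^ 2 → S.Ψ T y ∈ off T v →
      u (S.Ψ T y) = (((dir y.2 ^ e) ^ μ : Circle) : ℂ) • (E y * (E' y)ᴴ)) :
    u (S.Ψ T m) = (((dir m.2 ^ e) ^ μ : Circle) : ℂ) • (E m * (E' m)ᴴ) := by
  have w0 : m.2 ≠ 0 := fun t => by
    rw [t] at hρ
    simp at hρ
    linarith
  have cm : Continuous fun z : Matrix κ Unit ℂ × Matrix l Unit ℂ => z.1 * z.2ᴴ :=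
    continuous_fst.matrix_mul continuous_snd.matrix_conjTranspose
  have c1 : ContinuousWithinAt (fun y => E y * (E' y)ᴴ) (Dm k R) m :=
    ContinuousAt.comp_continuousWithinAt (f := fun y => (E y, E' y)) cm.continuousAt
      ((Eqv.cwa S T hE hm).prodMk (Eqv.cwa S T hE' hm))
  have c2 : ContinuousAt (fun y : C3 => (((dir y.2 ^ e) ^ μ : Circle) : ℂ)) m :=
    (cm_coe (cm_zpow ((cm_dir (f := fun y : C3 => y.2) contDiff_snd.contMDiff.contMDiffAt w0).pow e)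
      μ)).continuousAt
  refine S.eq_of_off T (f := fun y => u (S.Ψ T y)) hm (S.cwa T hm hu) (c2.continuousWithinAt.smul c1) ?_
  filter_upwards [(isOpen_lt continuous_const (by fun_prop : Continuous fun y : C3 => ‖y.2‖ ^ 2)).mem_nhds hρ]
    with y hy hD ho using he y hD hy ho

/-- **toric lines under the twist**: `s`, `s'` are toric frames off the axis; the degrees on the rods `a`, `a'` agree
and the degree on the sphere is reflected.  The isometry `u` with `u s' = s` extends over the core as an isometry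
`q → τ^* p`. -/
theorem exists_uni_tor (hn : n * e = 2) (hr : r ∈ Ioo (k ^ 2 / 2) R)
    (h1 : Xt T p s η₁ t₁ (S.O1 T)) (h2 : Xt T p s η₂ t₂ (S.O2 T)) (hb : dot η₁ b = dot η₂ b)
    (h1' : Xt T q s' η₁' t₁' (S.O1 T)) (h2' : Xt T q s' η₂' t₂' (S.O2 T)) (hb' : dot η₁' b = dot η₂' b)
    (ha : dot η₁' a = dot η₁ a) (ha' : dot η₂' a' = dot η₂ a')
    (hm : dot η₂' b = dot η₂ b + e * (dot η₂ a' - dot η₁ a')) {O : Set (X T v)}
    {u : X T v → Matrix κ l ℂ} (hO : S.Ψ T '' Dm k R ⊆ O) (hu : Uni (𝓡 4) q p u (O \ S.K T (rh k r)))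
    (he : ∀ x ∈ S.Ψ T '' Dm k R, x ∉ S.K T (rh k r) → x ∈ off T v → u x * s' x = s x) :
    ∃ U, Uni (𝓡 4) q (fun x => p (S.tau T hn hr x)) U O ∧ ∀ x ∉ S.K T (rh k r), U x = u x := by
  have F := S.fr2_of T h1 h2 hb
  have F' := S.fr2_of T h1' h2' hb'
  have hn' : (n : ℤ) * e = 2 := by exact_mod_cast hn
  have e0 : dot η₂' a' - dot η₁' a' = -(dot η₂ a' - dot η₁ a') := by
    have := S.dot_sum η₁
    have := S.dot_sum η₁'
    have : (n : ℤ) * dot η₂' b = n * dot η₂ b + 2 * (dot η₂ a' - dot η₁ a') := by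
      rw [hm, ← hn']; ring
    rw [hb'] at *
    rw [hb] at *
    linarith
  rw [e0] at F'
  have nK : ∀ y ∈ Dm k R, rh k r < ‖y.2‖ ^ 2 → S.Ψ T y ∈ O \ S.K T (rh k r) := fun y hy h =>
    ⟨hO ⟨y, hy, rfl⟩, fun t => h.not_ge ((S.Ψ_mem_K T hr.2 hy).1 t)⟩
  refine S.exists_uni T hn hr F.eqv F'.eqv hu fun m hm0 hρ => S.eq_large T F.eqv F'.eqv (rh_pos S.pos hr.1)
    hm0 hρ (hu.sm _ (nK m hm0 hρ)) fun y hD hy ho => ?_
  obtain ⟨o1, o2, o3⟩ := (S.Ψ_mem_off T hD).1 ho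
  have y2 : S.Ψ T y ∈ S.O2 T := ⟨y, ⟨hD, o1⟩, rfl⟩
  have k1 : s' (S.Ψ T y) * (s' (S.Ψ T y))ᴴ = q (S.Ψ T y) := by
    rw [← (h2'.uni.iso _ y2).tgt, h2'.eq _ y2 ho, smul_mul_ct, mul_inv_cancel, Circle.coe_one, one_smul]
  have k2 : dot η₂' a = dot η₂ a + 2 * (dot η₂ a' - dot η₁ a') := by
    rw [eq_sub_of_add_eq (S.dot_sum η₂'), eq_sub_of_add_eq (S.dot_sum η₂), hm, ha', ← hn']
    ring
  rw [S.eqs_2 T o1, S.eqs_2 T o1, h2.eq _ y2 ho, h2'.eq _ y2 ho, csmul_smul, csmul_smul, smul_mul_ct,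
    csmul_smul, ← he _ ⟨y, hD, rfl⟩ (nK y hD hy).2 ho, Matrix.mul_assoc, k1, (hu.iso _ (nK y hD hy)).idem,
    S.chi_Ψ T _ o1 o2 o3, S.chi_Ψ T _ o1 o2 o3, k2, hm, ha']
  generalize dot η₂ a' - dot η₁ a' = μ
  refine ((one_smul ℂ _).symm.trans ?_)
  congr 1
  simp only [_root_.zpow_add, two_mul, _root_.zpow_mul, zpow_natCast, _root_.zpow_neg, Circle.coe_mul,
    Circle.coe_inv]
  generalize dir y.1.1 ^ μ = A, (dir y.2 ^ e) ^ μ = B, dir y.1.1 ^ dot η₂ a = C, dir y.1.2 ^ dot η₂ a' = D,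
    dir y.2 ^ dot η₂ b = G
  have := A.coe_ne_zero
  have := B.coe_ne_zero
  have := C.coe_ne_zero
  have := D.coe_ne_zero
  have := G.coe_ne_zero
  field_simp

end Sph

end Crest.Agent.X212.Tau19
end
end

-- ▼ part X212/Tau19/Ori
section

/-!
# X212 / Tau19, part Ori (helper19): the twist preserves every orientation; the neighbourhood is connected
-/

set_option autoImplicit false
set_option linter.unusedSectionVars false

open Set Filter Topology Function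
open scoped ContDiff Manifold

noncomputable section

namespace Crest.Agent.X212.Tau19

open Crest.Agent.X212.Glue52 Crest.Agent.X212.Rod53 Crest.Agent.X212.Orx52 Crest.Agent.X212.Int54
open Crest.Agent.R208.F (Ext)

variable {n e : ℕ} {k R r : ℝ}

theorem lt_rh (hk : 0 < k) {W : ℝ} : W < rh k R ↔ k ^ 2 / 2 * (1 + 2 * W) < R := by
  rw [rh, lt_sub_iff_add_lt, lt_div_iff₀ (by positivity)]
  constructor <;> intro h <;> linarith

theorem rh_lt_rh (hk : 0 < k) (h : r < R) : rh k r < rh k R :=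
  sub_lt_sub_right (div_lt_div_of_pos_right h (by positivity)) _

theorem isPreconnected_Un : IsPreconnected {z : ℂ × ℂ | ‖z.1‖ ^ 2 + ‖z.2‖ ^ 2 = 1} := by
  have h := (isPreconnected_sphere (E := E4) (by
    rw [← Module.finrank_eq_rank]; simp) 0 1).image _ L4.continuous.continuousOn
  convert h using 1
  ext z
  obtain ⟨x, rfl⟩ := L4.surjective z
  rw [mem_ofPred_eq, norm_L4, L4.injective.mem_set_image, mem_sphere_zero_iff_norm,
    pow_eq_one_iff_of_nonneg (norm_nonneg _) two_ne_zero]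

theorem isPreconnected_Dm (hk : 0 < k) : IsPreconnected (Dm k R) := by
  convert isPreconnected_Un.prod (convex_ball (0 : ℂ) √(rh k R)).isPreconnected using 1
  ext m
  exact and_congr Iff.rfl (by rw [mem_ball_zero_iff, Real.lt_sqrt (norm_nonneg _), lt_rh hk])

variable {EN HN : Type} [NormedAddCommGroup EN] [NormedSpace ℝ EN] [FiniteDimensional ℝ EN]
  [TopologicalSpace HN] {IN : ModelWithCorners ℝ EN HN} [IN.Boundaryless]
  {N : Type} [TopologicalSpace N] [ChartedSpace HN N] [IsManifold IN ∞ N] [T2Space N]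

namespace Sph

variable {v : ℝ → Z2} {a b a' : Z2} {c : ℝ} (S : Sph v a b a' n c k R) (T : Tb IN N)

theorem isPreconnected_image : IsPreconnected (S.Ψ T '' Dm k R) :=
  (isPreconnected_Dm S.pos).image _ (S.smD T).continuousOn

theorem K_subset_image (hr : r < R) : S.K T (rh k r) ⊆ S.Ψ T '' Dm k R := image_mono (S.K_dom hr)

theorem image_subset_disc : S.Ψ T '' Dm k R ⊆ T.disc v c (Iio R) := by
  rintro _ ⟨m, h, rfl⟩
  exact ⟨S.Ψ_mem_tor T h, (S.rr_Ψ T h).trans_lt h.2⟩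

theorem exists_off (hr : r ∈ Ioo (k ^ 2 / 2) R) : ∃ x ∈ S.Ψ T '' Dm k R, x ∉ S.K T (rh k r) := by
  obtain ⟨W, h1, h2⟩ := exists_between (rh_lt_rh S.pos hr.2)
  have h0 := (rh_pos S.pos hr.1).trans h1
  have e : ‖(√W : ℂ)‖ ^ 2 = W := by
    rw [Complex.norm_real, Real.norm_eq_abs, sq_abs, Real.sq_sqrt h0.le]
  have hm : (((1, 0), √W) : C3) ∈ Dm k R := ⟨by simp [Un], (lt_rh S.pos).1 (e.trans_lt h2)⟩
  exact ⟨_, ⟨_, hm, rfl⟩, fun t => ((S.Ψ_mem_K T hr.2 hm).1 t).not_gt (h1.trans_eq e.symm)⟩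

variable (hn : n * e = 2) (hr : r ∈ Ioo (k ^ 2 / 2) R)

theorem tau_ev {x : X T v} (hx : x ∉ S.K T (rh k r)) : S.tau T hn hr =ᶠ[𝓝 x] id :=
  eventually_of_mem ((S.isCompact_K T hr.2).isClosed.isOpen_compl.mem_nhds hx) fun _ => S.tau_off T hn hr

/-- the twist preserves orientations -/
theorem pos_tau {O : X T v → Ext E4} (hO : Ori (𝓡 4) O) : Pos (𝓡 4) (𝓡 4) (S.tau T hn hr) univ O O := by
  have h1 : Pos (𝓡 4) (𝓡 4) (S.tau T hn hr) (S.K T (rh k r))ᶜ O O :=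
    (pos_id.2 (oriOn hO _).same).congr' fun _ => S.tau_ev T hn hr
  obtain ⟨x, x1, x2⟩ := S.exists_off T hr
  have h2 : Pos (𝓡 4) (𝓡 4) (S.tau T hn hr) (S.Ψ T '' Dm k R) O O :=
    pos_of_pt (S.isPreconnected_image T) (oriOn hO _) (oriOn hO univ)
      (fun y _ => (S.tau T hn hr).isLocalDiffeomorph y) (mapsTo_univ _ _) x1
      (h1.mono (singleton_subset_iff.2 x2))
  exact (h1.union h2).mono fun y _ => (em _).symm.imp_right fun t => S.K_subset_image T hr.2 t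

end Sph

end Crest.Agent.X212.Tau19
end
end

-- ▼ part X212/Tau19/TL

/-!
# X212 / Tau19, part TL (helper19): the twist reflects toric lines

`O(∑ m_j D_j)` is pulled back to `O(∑ m'_j D_j)` with `m'_b = - m_b + e (m_a + m_a')`, by an isometry that is the
standard one (`U s' = s`) off the core.
-/

set_option autoImplicit false
set_option linter.unusedSectionVars false

open Set Filter Topology Function Matrix
open scoped ContDiff Manifold ComplexConjugate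

noncomputable section

namespace Crest.Agent.X212.Tau19

open Crest.Agent.X212.Glue52 Crest.Agent.X212.Pj41
open Crest.Agent.X212.Rod53 hiding Uni
open Crest.Agent.X212.Line51

variable {EN HN : Type} [NormedAddCommGroup EN] [NormedSpace ℝ EN] [FiniteDimensional ℝ EN]
  [TopologicalSpace HN] {IN : ModelWithCorners ℝ EN HN} [IN.Boundaryless]
  {N : Type} [TopologicalSpace N] [ChartedSpace HN N] [IsManifold IN ∞ N] [T2Space N]
  {κ l : Type*} [Fintype κ] [Fintype l] {n e : ℕ} {k R r : ℝ}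

theorem mul_sc {M : Type*} (u : Matrix κ Unit ℂ) (g : M → Circle) (x : M) : u * sc g x = (g x : ℂ) • u := by
  ext i j
  simp [Matrix.mul_apply, sc, mul_comm]

theorem xt_of_TL {v : ℝ → Z2} {T : Tb IN N} {m : ℝ → ℤ} {p : X T v → Matrix κ κ ℂ}
    {s : X T v → Matrix κ Unit ℂ} {O : Set (X T v)} {η : Z2} (hO : IsOpen O) (ht : O ⊆ T.tor v)
    (h : TL T v m p s O) (hη : ∀ x ∈ O, x ∉ off T v → Rep v m η (T.time v x)) :
    ∃ t, Xt T p s (-η) t O := by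
  obtain ⟨t, h1, h2⟩ := h.exists_fr hO (tl_chi ht hη)
  exact ⟨t, h1, fun x hx o => by
    rw [← (Tau19.mul_sc _ _ _).symm.trans (h2 x hx o), csmul_smul, chi_neg o, inv_mul_cancel, Circle.coe_one,
      one_smul]⟩

theorem dot_eq_of_pm {η η' a w : Z2} (h : PM w a) (e : dot η w = dot η' w) : dot η a = dot η' a := by
  have := (dot_pm (η := η - η') h).1 (by rw [dot_sub, e, sub_self])
  rwa [dot_sub, sub_eq_zero] at this

theorem exists_V2 (n : ℕ) (hk : 0 < k) {ζ : ℂ} (h : ‖ζ‖ ^ 2 < k ^ 2) :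
    ∃ m : C3, Un m ∧ m.1.1 ≠ 0 ∧ m.2 = 0 ∧ V2 n k m = (0, ζ) := by
  have h1 : 0 < 1 - ‖ζ‖ ^ 2 / k ^ 2 := by rw [sub_pos, div_lt_one (by positivity)]; exact h
  have h2 := Real.sqrt_pos.2 h1
  have h3 : dir (√(1 - ‖ζ‖ ^ 2 / k ^ 2) : ℂ) = 1 := by simpa using dir_mul h2 1
  have h4 : (k : ℂ) ≠ 0 := by exact_mod_cast hk.ne'
  refine ⟨((√(1 - ‖ζ‖ ^ 2 / k ^ 2), ζ / k), 0), ?_, Complex.ofReal_ne_zero.2 h2.ne', rfl, Prod.ext ?_ ?_⟩
  · simp only [Un]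
    rw [Complex.norm_real, Real.norm_eq_abs, sq_abs, Real.sq_sqrt h1.le, norm_div, div_pow, Complex.norm_real,
      Real.norm_eq_abs, sq_abs]
    ring
  · simp [V2]
  · simp only [V2, h3, ch]
    simp
    field_simp

namespace Sph

variable {v : ℝ → Z2} {a b a' : Z2} {c : ℝ} (S : Sph v a b a' n c k R) (T : Tb IN N)

/-- the sphere lies in the core -/
theorem mem_K_of_axis {ρ : ℝ} (hρ : 0 ≤ ρ) {x : X T v} (hx : x ∉ off T v)
    (ht : T.time v x ∈ Icc (c - k ^ 2 / 2) (c + k ^ 2 / 2)) : x ∈ S.K T ρ := by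
  have h0 := S.lt
  have hk : 0 < k ^ 2 := by have := S.pos; positivity
  have hD : ∀ m : C3, Un m → m.2 = 0 → m ∈ Dm k R := fun m h1 h2 => ⟨h1, by rw [h2]; simpa using h0⟩
  rcases lt_or_ge (T.time v x) c with h | h
  · obtain ⟨z, hz, rfl⟩ := T.mem_vtx S.uni (tor_of_not_off hx)
      (Or.inr (S.left _ ⟨by linarith [ht.1], by linarith⟩))
    rw [T.time_vtx _ hz, tm] at ht h
    rw [vtx_mem_off _ hz] at hx
    have z2 : z.2 = 0 := by_contra fun t => by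
      have z1 : z.1 = 0 := by_contra fun t' => hx ⟨t', t⟩
      have := ht.1
      rw [z1, norm_zero] at this
      nlinarith [norm_pos_iff.2 t]
    rw [z2, norm_zero] at h
    obtain ⟨m, m1, m2, m3, m4⟩ := exists_V2 n S.pos (ζ := z.1) (by linarith)
    refine ⟨sw m, ⟨m1.sw, by simpa [sw, m3] using hρ⟩, (S.Ψ_1 T (Dm.sw (hD m m1 m3)) m2).trans ?_⟩
    rw [V1, sw_sw, m4, Prod.swap_prod_mk, ← z2]
  · obtain ⟨z, hz, rfl⟩ := T.mem_vtx S.uni' (tor_of_not_off hx)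
      (Or.inr (S.right _ ⟨by linarith, by linarith [ht.2]⟩))
    rw [T.time_vtx _ hz, tm] at ht h
    rw [vtx_mem_off _ hz] at hx
    have z1 : z.1 = 0 := by_contra fun t => by
      have z2 : z.2 = 0 := by_contra fun t' => hx ⟨t, t'⟩
      have := ht.2
      rw [z2, norm_zero] at this
      nlinarith [norm_pos_iff.2 t]
    rw [z1, norm_zero] at h
    obtain ⟨m, m1, m2, m3, m4⟩ := exists_V2 n S.pos (ζ := z.2) (by linarith)
    refine ⟨m, ⟨m1, by simpa [m3] using hρ⟩, (S.Ψ_2 T m2).trans ?_⟩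
    rw [m4, ← z1]

variable {p : X T v → Matrix κ κ ℂ} {q : X T v → Matrix l l ℂ} {s : X T v → Matrix κ Unit ℂ}
  {s' : X T v → Matrix l Unit ℂ} {η₁ η₂ η₁' η₂' : Z2} {m m' : ℝ → ℤ} {O : Set (X T v)}

/-- **the twist reflects toric lines** -/
theorem exists_uni_TL (hn : n * e = 2) (hr : r ∈ Ioo (k ^ 2 / 2) R) (hO : IsOpen O)
    (hD : S.Ψ T '' Dm k R ⊆ O) (h : TL T v m p s O) (h' : TL T v m' q s' O)
    (r1 : ∀ t ∈ Ioo (c - R) (c + k ^ 2 / 2), Rep v m η₁ t)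
    (r2 : ∀ t ∈ Ioo (c - k ^ 2 / 2) (c + R), Rep v m η₂ t)
    (r1' : ∀ t ∈ Ioo (c - R) (c + k ^ 2 / 2), Rep v m' η₁' t)
    (r2' : ∀ t ∈ Ioo (c - k ^ 2 / 2) (c + R), Rep v m' η₂' t)
    (hm : ∀ t ∉ Icc (c - k ^ 2 / 2) (c + k ^ 2 / 2), m' t = m t)
    (hb : dot η₂' b = -dot η₂ b + e * (dot η₁ a + dot η₂ a')) :
    ∃ U, Uni (𝓡 4) q (fun x => p (S.tau T hn hr x)) U O ∧
      ∀ x ∈ O, x ∉ S.K T (rh k r) → x ∈ off T v → U x * s' x = s x := by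
  have h0 := S.lt
  have hk : 0 < k ^ 2 := by have := S.pos; positivity
  have hn' : (n : ℤ) * e = 2 := by exact_mod_cast hn
  have s1 : S.O1 T ⊆ S.Ψ T '' Dm k R := image_mono fun _ t => t.1
  have s2 : S.O2 T ⊆ S.Ψ T '' Dm k R := image_mono fun _ t => t.1
  have st : S.Ψ T '' Dm k R ⊆ T.tor v := fun _ t => (S.image_subset_disc T t).1
  obtain ⟨t₁, x1⟩ := xt_of_TL (S.isOpen_O1 T) (s1.trans st) (h.mono (s1.trans hD))
    fun x t o => r1 _ (S.time_O1 T t o)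
  obtain ⟨t₂, x2⟩ := xt_of_TL (S.isOpen_O2 T) (s2.trans st) (h.mono (s2.trans hD))
    fun x t o => r2 _ (S.time_O2 T t o)
  obtain ⟨t₁', x1'⟩ := xt_of_TL (S.isOpen_O1 T) (s1.trans st) (h'.mono (s1.trans hD))
    fun x t o => r1' _ (S.time_O1 T t o)
  obtain ⟨t₂', x2'⟩ := xt_of_TL (S.isOpen_O2 T) (s2.trans st) (h'.mono (s2.trans hD))
    fun x t o => r2' _ (S.time_O2 T t o)
  have c1 : c ∈ Ioo (c - R) (c + k ^ 2 / 2) := ⟨by linarith, by linarith⟩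
  have c2 : c ∈ Ioo (c - k ^ 2 / 2) (c + R) := ⟨by linarith, by linarith⟩
  have pb : PM (v c) b := Jr.pm (Jv.right (S.left c c1) c2.1)
  have b1 : dot η₁ b = dot η₂ b :=
    dot_eq_of_pm pb ((r1 c c1).self_of_nhds.trans (r2 c c2).self_of_nhds.symm)
  have b2 : dot η₁' b = dot η₂' b :=
    dot_eq_of_pm pb ((r1' c c1).self_of_nhds.trans (r2' c c2).self_of_nhds.symm)
  obtain ⟨ta, ta1, ta2⟩ := exists_between (show c - R < c - k ^ 2 / 2 by linarith)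
  obtain ⟨tb, tb1, tb2⟩ := exists_between (show c + k ^ 2 / 2 < c + R by linarith)
  have d1 : ta ∈ Ioo (c - R) (c + k ^ 2 / 2) := ⟨ta1, by linarith⟩
  have d2 : tb ∈ Ioo (c - k ^ 2 / 2) (c + R) := ⟨by linarith, tb2⟩
  have a1 : dot η₁' a = dot η₁ a := dot_eq_of_pm (Jr.pm (Jv.left (S.left _ d1) ta2))
    ((r1' _ d1).self_of_nhds.trans ((hm _ fun t => t.1.not_gt ta2).trans (r1 _ d1).self_of_nhds.symm))
  have a2 : dot η₂' a' = dot η₂ a' := dot_eq_of_pm (Jr.pm (Jv.right (S.right _ d2) tb1))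
    ((r2' _ d2).self_of_nhds.trans ((hm _ fun t => t.2.not_gt tb1).trans (r2 _ d2).self_of_nhds.symm))
  have oK : IsOpen (O \ S.K T (rh k r)) := hO.sdiff (S.isCompact_K T hr.2).isClosed
  obtain ⟨u, u1, u2⟩ := ((h'.mono sdiff_subset).congr_m (m' := m) fun x hx o =>
    eventually_of_mem (isClosed_Icc.isOpen_compl.mem_nhds fun t =>
      hx.2 (S.mem_K_of_axis T (rh_pos S.pos hr.1).le o t)) fun t ht => (hm t ht).symm).uni oK
    (h.mono sdiff_subset)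
  obtain ⟨U, U1, U2⟩ := S.exists_uni_tor T hn hr x1 x2 (by rw [dot_neg, dot_neg, b1]) x1' x2'
    (by rw [dot_neg, dot_neg, b2]) (by rw [dot_neg, dot_neg, a1]) (by rw [dot_neg, dot_neg, a2]) (by
      simp only [dot_neg]
      rw [hb, eq_sub_of_add_eq' (S.dot_sum η₁), b1]
      linear_combination (-dot η₂ b) * hn') hD u1 fun x t1 t2 o => u2 x ⟨hD t1, t2⟩ o
  exact ⟨U, U1, fun x t1 t2 o => by rw [U2 x t2, u2 x ⟨t1, t2⟩ o]⟩

end Sph

/-- the sphere of a word with oriented rods -/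
theorem sph_wd {s : ℤ → Z2} {i : ℤ} (hu : Rod53.Uni (s (i - 1)) (s i))
    (h : s (i + 1) = -s (i - 1) + (n : ℤ) • s i) :
    Sph (wd s) (s (i - 1)) (s i) (s (i + 1)) n (i + 1 / 2) 1 (3 / 2) :=
  Sph.of_wd hu h (PM.refl _) (PM.refl _) (PM.refl _)

/-- **the twist reflects toric lines on words** -/
theorem exists_uni_wd {s : ℤ → Z2} {i : ℤ} (hu : Rod53.Uni (s (i - 1)) (s i))
    (h : s (i + 1) = -s (i - 1) + (n : ℤ) • s i) (T : Tb IN N) (hn : n * e = 2)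
    (hr : r ∈ Ioo ((1 : ℝ) ^ 2 / 2) (3 / 2)) {w w' : ℤ → ℤ} (hw : ∀ j, j ≠ i → w' j = w j)
    (hi : w' i = -w i + e * (w (i - 1) + w (i + 1))) {O : Set (X T (wd s))} (hO : IsOpen O)
    (hD : T.disc (wd s) (i + 1 / 2) (Iio (3 / 2)) ⊆ O) {p : X T (wd s) → Matrix κ κ ℂ}
    {q : X T (wd s) → Matrix l l ℂ} {σ : X T (wd s) → Matrix κ Unit ℂ} {σ' : X T (wd s) → Matrix l Unit ℂ}
    (hp : TL T (wd s) (wm s w) p σ O) (hq : TL T (wd s) (wm s w') q σ' O) :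
    ∃ U, Uni (𝓡 4) q (fun x => p ((sph_wd hu h).tau T hn hr x)) U O ∧
      ∀ x ∈ O, x ∉ (sph_wd hu h).K T (rh 1 r) → x ∈ off T (wd s) → U x * σ' x = σ x := by
  have u2 := (sph_wd hu h).uni'
  have r1 : ∀ (w : ℤ → ℤ) (t : ℝ), t ∈ Ioo ((i : ℝ) + 1 / 2 - 3 / 2) ((i : ℝ) + 1 / 2 + 1 ^ 2 / 2) →
      Rep (wd s) (wm s w) (Line51.dual (s (i - 1)) (s i) (w (i - 1)) (w i)) t := fun w t ht =>
    rep_wd (i := i - 1) (j := i) (fun j j1 j2 => by
      rcases (by omega : j = i - 1 ∨ j = i) with e | e <;> rw [e]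
      exacts [dual_left hu _ _, dual_right hu _ _])
      ⟨by push_cast; linarith [ht.1], by linarith [ht.2]⟩
  have r2 : ∀ (w : ℤ → ℤ) (t : ℝ), t ∈ Ioo ((i : ℝ) + 1 / 2 - 1 ^ 2 / 2) ((i : ℝ) + 1 / 2 + 3 / 2) →
      Rep (wd s) (wm s w) (Line51.dual (s i) (s (i + 1)) (w i) (w (i + 1))) t := fun w t ht =>
    rep_wd (i := i) (j := i + 1) (fun j j1 j2 => by
      rcases (by omega : j = i ∨ j = i + 1) with e | e <;> rw [e]
      exacts [dual_left u2 _ _, dual_right u2 _ _])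
      ⟨by linarith [ht.1], by push_cast; linarith [ht.2]⟩
  refine (sph_wd hu h).exists_uni_TL T hn hr hO (((sph_wd hu h).image_subset_disc T).trans hD) hp hq
    (r1 w) (r2 w) (r1 w') (r2 w') (fun t ht => ?_) ?_
  · rw [wm, wm, hw]
    intro e
    have e1 := Int.floor_le t
    have e2 := Int.lt_floor_add_one t
    rw [e] at e1 e2
    exact ht ⟨by linarith, by linarith⟩
  · rw [dual_left u2, dual_left u2, dual_left hu, dual_right u2, hi]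

end Crest.Agent.X212.Tau19
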