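import Crest.Agent.X212.Rod53.Band
import Crest.Agent.X212.Rod53.Word

-- ▼ part X212/Tau19/Mod
section

/-!
# X212 / Tau19, part Mod (helper19): the model `(S³ × ℂ) / S¹` of a neighbourhood of a `-n` sphere

* `act n l (z₁, z₂, w) = (l z₁, l z₂, l⁻ⁿ w)`; `Un` the unit sphere condition;
* `tt e ρ ε` (`n e = 2`) : the lift of the Dehn twist (`n = 2`) or of the reflection in an exceptional sphere
  (`n = 1`); it covers `l ↦ l⁻¹`, `tt e ρ (-ε)` is its inverse, it is the action of `dir w ^ e` for `ρ ≤ ‖w‖²`;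
* `V2 n k`, `V1 n k` : prolate coordinates in the two vertex charts, `s2 k`, `s1 k` their sections.
-/

set_option autoImplicit false
set_option linter.unusedSectionVars false

open Set Filter Topology Function
open scoped ContDiff Manifold ComplexConjugate

noncomputable section

namespace Crest.Agent.X212.Tau19

open Crest.Agent.X212.Glue52 Crest.Agent.X212.Rod53

/-- the total space of the model -/
abbrev C3 : Type := (ℂ × ℂ) × ℂ

/-- the circle action with weights `1, 1, -n` -/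
def act (n : ℕ) (l : Circle) (m : C3) : C3 := ((l * m.1.1, l * m.1.2), (l⁻¹ ^ n : Circle) * m.2)

/-- the unit sphere -/
def Un (m : C3) : Prop := ‖m.1.1‖ ^ 2 + ‖m.1.2‖ ^ 2 = 1

/-- exchange of the two homogeneous coordinates -/
def sw (m : C3) : C3 := (m.1.swap, m.2)

variable {n e : ℕ}

theorem act_act (l l' : Circle) (m : C3) : act n l (act n l' m) = act n (l * l') m := by
  simp only [act, Circle.coe_mul, Circle.coe_pow, mul_inv, mul_pow, mul_assoc]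

theorem act_one (m : C3) : act n 1 m = m := by simp [act]

theorem norm_act1 (l : Circle) (m : C3) : ‖(act n l m).1.1‖ = ‖m.1.1‖ := by simp [act]
theorem norm_act2 (l : Circle) (m : C3) : ‖(act n l m).1.2‖ = ‖m.1.2‖ := by simp [act]
theorem norm_act3 (l : Circle) (m : C3) : ‖(act n l m).2‖ = ‖m.2‖ := by simp [act]

theorem Un.act {m : C3} (h : Un m) (l : Circle) : Un (act n l m) := by
  rw [Un, norm_act1, norm_act2]; exact h

theorem Un.sw {m : C3} (h : Un m) : Un (sw m) := (add_comm _ _).trans h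

theorem sw_act (l : Circle) (m : C3) : sw (act n l m) = act n l (sw m) := rfl
theorem sw_sw (m : C3) : sw (sw m) = m := rfl

theorem Un.ne {m : C3} (h : Un m) (e : m.1.1 = 0) : m.1.2 ≠ 0 := fun k => by
  rw [Un, e, k] at h; simp at h

theorem contDiff_sw : ContDiff ℝ ∞ sw := by
  unfold sw
  exact (contDiff_snd.fst'.prodMk contDiff_fst.fst').prodMk contDiff_snd

/-! ### the twist -/

/-- the angle -/
def ph (ρ W : ℝ) : ℝ := Real.pi / 2 * Real.smoothTransition (2 * W / ρ - 1)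

/-- coefficient of `wᵉ z` -/
def al (e : ℕ) (ρ W : ℝ) : ℝ := Real.sin (ph ρ W) / √W ^ e

/-- coefficient of `j z` -/
def be (ρ W : ℝ) : ℝ := Real.cos (ph ρ W)

variable {ρ W : ℝ}

theorem ph_small (hρ : 0 < ρ) (h : W ≤ ρ / 2) : ph ρ W = 0 := by
  rw [ph, Real.smoothTransition.zero_of_nonpos, mul_zero]
  rw [sub_nonpos, div_le_one hρ]
  linarith

theorem ph_large (hρ : 0 < ρ) (h : ρ ≤ W) : ph ρ W = Real.pi / 2 := by
  rw [ph, Real.smoothTransition.one_of_one_le, mul_one]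
  rw [le_sub_iff_add_le, le_div_iff₀ hρ]
  linarith

theorem contDiff_ph (ρ : ℝ) : ContDiff ℝ ∞ (ph ρ) :=
  contDiff_const.mul (Real.smoothTransition.contDiff.comp (by fun_prop))

theorem contDiff_be (ρ : ℝ) : ContDiff ℝ ∞ (be ρ) := Real.contDiff_cos.comp (contDiff_ph ρ)

theorem contDiff_al (hρ : 0 < ρ) : ContDiff ℝ ∞ (al e ρ) := by
  refine contDiff_iff_contDiffAt.2 fun W => ?_
  rcases lt_or_ge W (ρ / 2) with h | h
  · refine (contDiffAt_const (c := 0)).congr_of_eventuallyEq ?_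
    filter_upwards [Iio_mem_nhds h] with t ht
    rw [al, ph_small hρ (le_of_lt ht), Real.sin_zero, zero_div]
  · have h0 : 0 < W := by linarith
    exact (Real.contDiff_sin.comp (contDiff_ph ρ)).contDiffAt.div ((Real.contDiffAt_sqrt h0.ne').pow e)
      (pow_pos (Real.sqrt_pos.2 h0) e).ne'

theorem al_be (hρ : 0 < ρ) (h : 0 ≤ W) : al e ρ W ^ 2 * W ^ e + be ρ W ^ 2 = 1 := by
  rcases h.eq_or_lt with rfl | h0
  · rw [al, be, ph_small hρ (by linarith)]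
    simp
  · rw [al, be, div_pow, ← pow_mul, mul_comm e, pow_mul, Real.sq_sqrt h,
      div_mul_cancel₀ _ (pow_pos h0 e).ne', Real.sin_sq_add_cos_sq]

/-- the lift of the Dehn twist -/
def tt (e : ℕ) (ρ ε : ℝ) (m : C3) : C3 :=
  ((al e ρ (‖m.2‖ ^ 2) * m.2 ^ e * m.1.1 - ε * be ρ (‖m.2‖ ^ 2) * conj m.1.2,
    al e ρ (‖m.2‖ ^ 2) * m.2 ^ e * m.1.2 + ε * be ρ (‖m.2‖ ^ 2) * conj m.1.1), conj m.2)

variable {ε : ℝ}

theorem norm_tt (m : C3) : ‖(tt e ρ ε m).2‖ = ‖m.2‖ := by simp [tt]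

theorem al_be_c (e : ℕ) (hρ : 0 < ρ) (w : ℂ) :
    (al e ρ (‖w‖ ^ 2) : ℂ) ^ 2 * (w ^ e * conj w ^ e) + (be ρ (‖w‖ ^ 2) : ℂ) ^ 2 = 1 := by
  rw [← mul_pow, Complex.mul_conj, Complex.normSq_eq_norm_sq]
  exact_mod_cast al_be hρ (sq_nonneg ‖w‖)

theorem tt_tt (hρ : 0 < ρ) (hε : ε * ε = 1) (m : C3) : tt e ρ (-ε) (tt e ρ ε m) = m := by
  have h1 := al_be_c e hρ m.2
  have h2 : (ε : ℂ) * ε = 1 := by exact_mod_cast hε
  refine Prod.ext (Prod.ext ?_ ?_) ?_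
  · simp only [tt, Complex.norm_conj, map_add, map_mul, map_pow, Complex.conj_ofReal, Complex.conj_conj,
      Complex.ofReal_neg]
    linear_combination m.1.1 * h1 + (be ρ (‖m.2‖ ^ 2) : ℂ) ^ 2 * m.1.1 * h2
  · simp only [tt, Complex.norm_conj, map_sub, map_mul, map_pow, Complex.conj_ofReal, Complex.conj_conj,
      Complex.ofReal_neg]
    linear_combination m.1.2 * h1 + (be ρ (‖m.2‖ ^ 2) : ℂ) ^ 2 * m.1.2 * h2
  · simp [tt]

theorem Un.tt (hρ : 0 < ρ) (hε : ε * ε = 1) {m : C3} (h : Un m) : Un (tt e ρ ε m) := by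
  have h1 := al_be_c e hρ m.2
  have h2 : (ε : ℂ) * ε = 1 := by exact_mod_cast hε
  have k : ∀ z : ℂ, ((‖z‖ ^ 2 : ℝ) : ℂ) = z * conj z := fun z => by
    rw [Complex.mul_conj, Complex.normSq_eq_norm_sq]
  have h3 : m.1.1 * conj m.1.1 + m.1.2 * conj m.1.2 = 1 := by
    rw [← k, ← k]; exact_mod_cast h
  apply Complex.ofReal_injective
  rw [Complex.ofReal_add, k, k]
  simp only [Tau19.tt, map_add, map_sub, map_mul, map_pow, Complex.conj_ofReal, Complex.conj_conj,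
    Complex.ofReal_one]
  linear_combination (m.1.1 * conj m.1.1 + m.1.2 * conj m.1.2) * h1 + h3 +
    (be ρ (‖m.2‖ ^ 2) : ℂ) ^ 2 * (m.1.1 * conj m.1.1 + m.1.2 * conj m.1.2) * h2

theorem tt_act (hn : n * e = 2) (l : Circle) (m : C3) :
    tt e ρ ε (act n l m) = act n l⁻¹ (tt e ρ ε m) := by
  have h1 : (l : ℂ) ≠ 0 := l.coe_ne_zero
  have h3 : ((l : ℂ)⁻¹ ^ n) ^ e = (l : ℂ)⁻¹ ^ 2 := by rw [← pow_mul, hn]
  have h2 : conj (l : ℂ) = (l : ℂ)⁻¹ := by rw [← Circle.coe_inv_eq_conj, Circle.coe_inv]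
  refine Prod.ext (Prod.ext ?_ ?_) ?_
  · simp only [tt, norm_act3]
    simp only [act, Circle.coe_pow, Circle.coe_inv, map_mul, h2, mul_pow, h3]
    field_simp
  · simp only [tt, norm_act3]
    simp only [act, Circle.coe_pow, Circle.coe_inv, map_mul, h2, mul_pow, h3]
    field_simp
  · simp only [tt, act, Circle.coe_pow, Circle.coe_inv, map_mul, map_pow, map_inv₀, h2, inv_inv]

theorem tt_large (hn : n * e = 2) (hρ : 0 < ρ) {m : C3} (h : ρ ≤ ‖m.2‖ ^ 2) :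
    tt e ρ ε m = act n (dir m.2 ^ e) m := by
  have h0 : m.2 ≠ 0 := fun e => by rw [e] at h; simp at h; linarith
  have h1 : (‖m.2‖ : ℂ) ≠ 0 := by exact_mod_cast norm_ne_zero_iff.2 h0
  have h2 : (al e ρ (‖m.2‖ ^ 2) : ℂ) * m.2 ^ e = (dir m.2 : ℂ) ^ e := by
    rw [al, ph_large hρ h, Real.sin_pi_div_two, Real.sqrt_sq (norm_nonneg _), coe_dir h0]
    push_cast
    rw [div_pow]
    field_simp
  have h3 : be ρ (‖m.2‖ ^ 2) = 0 := by rw [be, ph_large hρ h, Real.cos_pi_div_two]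
  refine Prod.ext (Prod.ext ?_ ?_) ?_
  · simp [tt, act, h2, h3]
  · simp [tt, act, h2, h3]
  · have h4 : ((dir m.2 : Circle) : ℂ) ≠ 0 := Circle.coe_ne_zero _
    simp only [tt, act, Circle.coe_pow, Circle.coe_inv]
    rw [inv_pow, ← pow_mul, mul_comm e, hn]
    conv_lhs => rw [← norm_mul_dir m.2, map_mul, Complex.conj_ofReal, ← Circle.coe_inv_eq_conj,
      Circle.coe_inv]
    conv_rhs => enter [2]; rw [← norm_mul_dir m.2]
    field_simp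

theorem tt_small (hρ : 0 < ρ) {m : C3} (h : ‖m.2‖ ^ 2 ≤ ρ / 2) :
    tt e ρ ε m = ((-(ε * conj m.1.2), ε * conj m.1.1), conj m.2) := by
  simp [tt, al, be, ph_small hρ h]

theorem contDiff_tt (e : ℕ) (hρ : 0 < ρ) (ε : ℝ) : ContDiff ℝ ∞ (tt e ρ ε) := by
  have h0 : ContDiff ℝ ∞ fun m : C3 => ‖m.2‖ ^ 2 := (contDiff_norm_sq ℝ).comp contDiff_snd
  have h1 : ContDiff ℝ ∞ fun m : C3 => (al e ρ (‖m.2‖ ^ 2) : ℂ) :=
    Complex.ofRealCLM.contDiff.comp ((contDiff_al hρ).comp h0)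
  have h2 : ContDiff ℝ ∞ fun m : C3 => (be ρ (‖m.2‖ ^ 2) : ℂ) :=
    Complex.ofRealCLM.contDiff.comp ((contDiff_be ρ).comp h0)
  have c : ∀ {f : C3 → ℂ}, ContDiff ℝ ∞ f → ContDiff ℝ ∞ fun m => conj (f m) :=
    fun hf => Complex.conjCLE.contDiff.comp hf
  exact ((((h1.mul (contDiff_snd.pow e)).mul contDiff_fst.fst').sub
    ((contDiff_const.mul h2).mul (c contDiff_snd.fst'))).prodMk
    (((h1.mul (contDiff_snd.pow e)).mul contDiff_snd.fst').add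
      ((contDiff_const.mul h2).mul (c contDiff_fst.fst')))).prodMk (c contDiff_snd)

/-! ### prolate coordinates -/

/-- `√(1 + ‖w‖²)` -/
def ch (w : ℂ) : ℝ := √(1 + ‖w‖ ^ 2)

theorem ch_pos (w : ℂ) : 0 < ch w := Real.sqrt_pos.2 (by positivity)
theorem ch_sq (w : ℂ) : ch w ^ 2 = 1 + ‖w‖ ^ 2 := Real.sq_sqrt (by positivity)
theorem ch_congr {w w' : ℂ} (h : ‖w‖ = ‖w'‖) : ch w = ch w' := by rw [ch, ch, h]

theorem contDiff_ch : ContDiff ℝ ∞ ch :=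
  (contDiff_const.add (contDiff_norm_sq ℝ)).sqrt fun w => by positivity

/-- coordinates in the right vertex chart -/
def V2 (n : ℕ) (k : ℝ) (m : C3) : ℂ × ℂ :=
  (k * (‖m.1.1‖ * (dir m.1.1 ^ n : Circle) * m.2), (k * ch m.2 : ℝ) * (m.1.2 * ((dir m.1.1)⁻¹ : Circle)))

/-- coordinates in the left vertex chart -/
def V1 (n : ℕ) (k : ℝ) (m : C3) : ℂ × ℂ := (V2 n k (sw m)).swap

variable {k : ℝ}

theorem norm_V21 (hk : 0 < k) (m : C3) : ‖(V2 n k m).1‖ = k * (‖m.1.1‖ * ‖m.2‖) := by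
  simp [V2, abs_of_pos hk]

theorem norm_V22 (hk : 0 < k) (m : C3) : ‖(V2 n k m).2‖ = k * ch m.2 * ‖m.1.2‖ := by
  simp [V2, abs_of_pos hk, abs_of_pos (ch_pos m.2)]

theorem V2_act (l : Circle) {m : C3} (h : m.1.1 ≠ 0) : V2 n k (act n l m) = V2 n k m := by
  have h1 : (l : ℂ) ≠ 0 := l.coe_ne_zero
  have h2 : dir (act n l m).1.1 = dir m.1.1 * l := by
    rw [← dir_mul_circle h, mul_comm]; rfl
  have h3 : ((dir m.1.1 : Circle) : ℂ) ≠ 0 := Circle.coe_ne_zero _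
  refine Prod.ext ?_ ?_
  · simp only [V2, h2, norm_act1]
    simp only [act, Circle.coe_mul, Circle.coe_pow, Circle.coe_inv, mul_pow, inv_pow]
    field_simp
  · simp only [V2, h2, ch_congr (norm_act3 l m)]
    simp only [act, Circle.coe_mul, Circle.coe_inv]
    field_simp

theorem V1_act (l : Circle) {m : C3} (h : m.1.2 ≠ 0) : V1 n k (act n l m) = V1 n k m := by
  rw [V1, sw_act, V2_act l (m := sw m) h, V1]

theorem cd_dir {E : Type} [NormedAddCommGroup E] [NormedSpace ℝ E] {f : E → ℂ} {x : E}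
    (hf : ContDiffAt ℝ ∞ f x) (h : f x ≠ 0) (n : ℤ) :
    ContDiffAt ℝ ∞ (fun y => ((dir (f y) ^ n : Circle) : ℂ)) x :=
  (cm_coe (cm_zpow (cm_dir hf.contMDiffAt h) n)).contDiffAt

theorem contDiffAt_V2 (n : ℕ) (k : ℝ) {m : C3} (h : m.1.1 ≠ 0) : ContDiffAt ℝ ∞ (V2 n k) m := by
  have f1 : ContDiffAt ℝ ∞ (fun m : C3 => m.1.1) m := contDiffAt_fst.fst'
  have f2 : ContDiffAt ℝ ∞ (fun m : C3 => m.1.2) m := contDiffAt_snd.fst'
  have d1 := cd_dir f1 h n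
  have d2 := cd_dir f1 h (-1)
  have d3 : ContDiffAt ℝ ∞ (fun m : C3 => (‖m.1.1‖ : ℂ)) m :=
    (cm_ofReal (cm_norm f1.contMDiffAt h)).contDiffAt
  simp only [zpow_one, zpow_neg, zpow_natCast] at d1 d2
  exact (contDiffAt_const.mul ((d3.mul d1).mul contDiffAt_snd)).prodMk
    ((Complex.ofRealCLM.contDiff.contDiffAt.comp m
      (contDiffAt_const.mul (contDiff_ch.contDiffAt.comp m contDiffAt_snd))).mul (f2.mul d2))

theorem contDiffAt_V1 (n : ℕ) (k : ℝ) {m : C3} (h : m.1.2 ≠ 0) : ContDiffAt ℝ ∞ (V1 n k) m :=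
  (contDiffAt_snd.prodMk contDiffAt_fst).comp m
    ((contDiffAt_V2 n k (m := sw m) h).comp m contDiff_sw.contDiffAt)

/-- the trace `‖w‖² - ‖z₁‖²` as a function on the vertex chart -/
def tr (k : ℝ) (Z : ℂ × ℂ) : ℝ := (‖Z.1‖ ^ 2 + ‖Z.2‖ ^ 2) / k ^ 2 - 1

/-- the discriminant `(‖w‖² + ‖z₁‖²)²` -/
def ds (k : ℝ) (Z : ℂ × ℂ) : ℝ := tr k Z ^ 2 + 4 * (‖Z.1‖ ^ 2 / k ^ 2)

/-- `‖z₁‖²` as a function on the vertex chart -/
def pp (k : ℝ) (Z : ℂ × ℂ) : ℝ := (√(ds k Z) - tr k Z) / 2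

/-- the third coordinate of the section -/
def w2 (k : ℝ) (Z : ℂ × ℂ) : ℂ := ((k * √(pp k Z))⁻¹ : ℝ) * Z.1

/-- the section of `V2` -/
def s2 (k : ℝ) (Z : ℂ × ℂ) : C3 := ((√(pp k Z), ((k * ch (w2 k Z))⁻¹ : ℝ) * Z.2), w2 k Z)

/-- the section of `V1` -/
def s1 (k : ℝ) (Z : ℂ × ℂ) : C3 := sw (s2 k Z.swap)

theorem tr_V2 (hk : 0 < k) {m : C3} (h : Un m) : tr k (V2 n k m) = ‖m.2‖ ^ 2 - ‖m.1.1‖ ^ 2 := by
  have h1 := ch_sq m.2
  rw [tr, norm_V21 hk, norm_V22 hk]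
  unfold Un at h
  field_simp
  linear_combination ‖m.1.2‖ ^ 2 * h1 + (1 + ‖m.2‖ ^ 2) * h

theorem ds_V2 (hk : 0 < k) {m : C3} (h : Un m) : ds k (V2 n k m) = (‖m.2‖ ^ 2 + ‖m.1.1‖ ^ 2) ^ 2 := by
  rw [ds, tr_V2 hk h, norm_V21 hk]
  field_simp
  ring

theorem pp_V2 (hk : 0 < k) {m : C3} (h : Un m) : pp k (V2 n k m) = ‖m.1.1‖ ^ 2 := by
  rw [pp, ds_V2 hk h, tr_V2 hk h, Real.sqrt_sq (by positivity)]
  ring

theorem s2_V2 (hk : 0 < k) {m : C3} (h : Un m) (h1 : m.1.1 ≠ 0) :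
    s2 k (V2 n k m) = act n (dir m.1.1)⁻¹ m := by
  have h2 : (‖m.1.1‖ : ℂ) ≠ 0 := by exact_mod_cast norm_ne_zero_iff.2 h1
  have h3 : ((dir m.1.1 : Circle) : ℂ) ≠ 0 := Circle.coe_ne_zero _
  have h4 : (k : ℂ) ≠ 0 := by exact_mod_cast hk.ne'
  have h5 : (ch m.2 : ℂ) ≠ 0 := by exact_mod_cast (ch_pos m.2).ne'
  have h6 := norm_mul_dir m.1.1
  have e : w2 k (V2 n k m) = (act n (dir m.1.1)⁻¹ m).2 := by
    rw [w2, pp_V2 hk h, Real.sqrt_sq (norm_nonneg _)]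
    simp only [V2, act, inv_inv, Circle.coe_pow]
    push_cast
    field_simp
  refine Prod.ext (Prod.ext ?_ ?_) e
  · simp only [s2, act, pp_V2 hk h, Real.sqrt_sq (norm_nonneg _), Circle.coe_inv]
    field_simp
    linear_combination h6
  · simp only [s2, e, ch_congr (norm_act3 _ m)]
    simp only [V2, act, Circle.coe_inv]
    push_cast
    field_simp

theorem s1_V1 (hk : 0 < k) {m : C3} (h : Un m) (h1 : m.1.2 ≠ 0) :
    s1 k (V1 n k m) = act n (dir m.1.2)⁻¹ m := by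
  rw [s1, V1, Prod.swap_swap, s2_V2 hk h.sw h1]
  rfl

theorem ds_nonneg (Z : ℂ × ℂ) : 0 ≤ ds k Z := by unfold ds; positivity

theorem pp_eq (Z : ℂ × ℂ) : pp k Z ^ 2 + tr k Z * pp k Z = ‖Z.1‖ ^ 2 / k ^ 2 := by
  have h := Real.sq_sqrt (ds_nonneg (k := k) Z)
  unfold pp
  unfold ds at h ⊢
  nlinarith

theorem norm_w2 (hk : 0 < k) {Z : ℂ × ℂ} (h : 0 < pp k Z) : ‖w2 k Z‖ ^ 2 = pp k Z + tr k Z := by
  have h1 := pp_eq (k := k) Z
  have h2 := Real.sqrt_pos.2 h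
  rw [w2, norm_mul, Complex.norm_real, Real.norm_of_nonneg (by positivity), mul_pow, inv_pow, mul_pow,
    Real.sq_sqrt h.le]
  field_simp at h1 ⊢
  linarith

theorem un_s2 (hk : 0 < k) {Z : ℂ × ℂ} (h : 0 < pp k Z) : Un (s2 k Z) := by
  have h1 := pp_eq (k := k) Z
  have h2 := norm_w2 hk h
  have h3 := ch_sq (w2 k Z)
  have h4 := ch_pos (w2 k Z)
  have h5 : tr k Z = (‖Z.1‖ ^ 2 + ‖Z.2‖ ^ 2) / k ^ 2 - 1 := rfl
  simp only [Un, s2]
  rw [norm_mul, Complex.norm_real, Complex.norm_real, Real.norm_of_nonneg (Real.sqrt_nonneg _),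
    Real.norm_of_nonneg (by positivity), Real.sq_sqrt h.le, mul_pow, inv_pow, mul_pow, h3, h2]
  have h6 : 0 < 1 + (pp k Z + tr k Z) := by rw [← h2]; positivity
  generalize pp k Z = p at *
  generalize tr k Z = t at *
  field_simp at h1 h5 ⊢
  linear_combination h1 - h5

theorem s2_ne {Z : ℂ × ℂ} (h : 0 < pp k Z) : (s2 k Z).1.1 ≠ 0 := by
  simp only [s2]
  exact_mod_cast (Real.sqrt_pos.2 h).ne'

theorem V2_s2 (hk : 0 < k) {Z : ℂ × ℂ} (h : 0 < pp k Z) : V2 n k (s2 k Z) = Z := by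
  have h1 := Real.sqrt_pos.2 h
  have h2 : dir (√(pp k Z) : ℂ) = 1 := by simpa using dir_mul h1 1
  have h3 : (√(pp k Z) : ℂ) ≠ 0 := by exact_mod_cast h1.ne'
  have h4 : (k : ℂ) ≠ 0 := by exact_mod_cast hk.ne'
  have h5 : (ch (w2 k Z) : ℂ) ≠ 0 := by exact_mod_cast (ch_pos _).ne'
  refine Prod.ext ?_ ?_
  · simp only [V2, s2, h2, w2, one_pow, Circle.coe_one, Complex.norm_real, Real.norm_of_nonneg h1.le]
    push_cast
    field_simp
  · simp only [V2, s2, h2, inv_one, Circle.coe_one]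
    push_cast
    field_simp

theorem contDiff_tr (k : ℝ) : ContDiff ℝ ∞ (tr k) :=
  ((((contDiff_norm_sq ℝ).comp contDiff_fst).add ((contDiff_norm_sq ℝ).comp contDiff_snd)).div_const
    _).sub contDiff_const

theorem contDiff_ds (k : ℝ) : ContDiff ℝ ∞ (ds k) :=
  ((contDiff_tr k).pow 2).add (contDiff_const.mul (((contDiff_norm_sq ℝ).comp contDiff_fst).div_const _))

theorem continuous_pp (k : ℝ) : Continuous (pp k) :=
  ((contDiff_ds k).continuous.sqrt.sub (contDiff_tr k).continuous).div_const _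

theorem ds_pos {Z : ℂ × ℂ} (h : 0 < pp k Z) : 0 < ds k Z := by
  refine (ds_nonneg Z).lt_of_ne fun e => ?_
  have h1 : tr k Z ^ 2 = 0 := by
    have : 0 ≤ ‖Z.1‖ ^ 2 / k ^ 2 := by positivity
    unfold ds at e
    nlinarith [sq_nonneg (tr k Z)]
  rw [pp, ← e, pow_eq_zero_iff two_ne_zero |>.1 h1] at h
  simp at h

theorem contDiffAt_s2 (hk : 0 < k) {Z : ℂ × ℂ} (h : 0 < pp k Z) : ContDiffAt ℝ ∞ (s2 k) Z := by
  have h1 : ContDiffAt ℝ ∞ (pp k) Z :=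
    (((contDiff_ds k).contDiffAt.sqrt (ds_pos h).ne').sub (contDiff_tr k).contDiffAt).div_const _
  have h2 : ContDiffAt ℝ ∞ (fun Z => √(pp k Z)) Z := h1.sqrt h.ne'
  have h0 := Real.sqrt_pos.2 h
  have r : ∀ {f : ℂ × ℂ → ℝ}, ContDiffAt ℝ ∞ f Z → ContDiffAt ℝ ∞ (fun y => (f y : ℂ)) Z :=
    fun hf => Complex.ofRealCLM.contDiff.contDiffAt.comp Z hf
  have h3 : ContDiffAt ℝ ∞ (w2 k) Z :=
    (r ((contDiffAt_const.mul h2).inv (by positivity))).mul contDiffAt_fst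
  have h4 := ch_pos (w2 k Z)
  exact ((r h2).prodMk ((r ((contDiffAt_const.mul (contDiff_ch.contDiffAt.comp Z h3)).inv
    (by simpa using ⟨hk.ne', h4.ne'⟩))).mul contDiffAt_snd)).prodMk h3

/-- the time of a point of the model, relative to the middle of the rod -/
def tmo (k : ℝ) (m : C3) : ℝ := k ^ 2 / 2 * ((‖m.1.1‖ ^ 2 - ‖m.1.2‖ ^ 2) * (1 + 2 * ‖m.2‖ ^ 2))

theorem tm_V2 (hk : 0 < k) (c : ℝ) {m : C3} (h : Un m) :
    tm (c + k ^ 2 / 2) (V2 n k m) = c + tmo k m := by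
  have h1 := ch_sq m.2
  rw [tm, norm_V21 hk, norm_V22 hk, tmo]
  unfold Un at h
  linear_combination (-k ^ 2 * ‖m.1.2‖ ^ 2) * h1 - k ^ 2 / 2 * h

theorem tm_V1 (hk : 0 < k) (c : ℝ) {m : C3} (h : Un m) :
    tm (c - k ^ 2 / 2) (V1 n k m) = c + tmo k m := by
  have h1 := tm_V2 (n := n) hk (-c) h.sw
  simp only [tm, V1, tmo, sw, Prod.fst_swap, Prod.snd_swap] at h1 ⊢
  linarith

/-- the base distance from the middle of the rod -/
theorem rad_le (hk : 0 < k) {m : C3} (h : Un m) :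
    tmo k m ^ 2 + (2 * ‖(V2 n k m).1‖ * ‖(V2 n k m).2‖) ^ 2 ≤ (k ^ 2 / 2 * (1 + 2 * ‖m.2‖ ^ 2)) ^ 2 := by
  have h1 := ch_sq m.2
  have e : tmo k m ^ 2 + (2 * ‖(V2 n k m).1‖ * ‖(V2 n k m).2‖) ^ 2 =
      (k ^ 2 / 2 * (1 + 2 * ‖m.2‖ ^ 2)) ^ 2 - (k ^ 2 * ‖m.1.1‖ * ‖m.1.2‖) ^ 2 := by
    rw [norm_V21 hk, norm_V22 hk, tmo]
    unfold Un at h
    linear_combination (4 * k ^ 4 * ‖m.1.1‖ ^ 2 * ‖m.1.2‖ ^ 2 * ‖m.2‖ ^ 2) * h1 +
      (k ^ 2 / 2 * (1 + 2 * ‖m.2‖ ^ 2)) ^ 2 * (‖m.1.1‖ ^ 2 + ‖m.1.2‖ ^ 2 + 1) * h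
  rw [e]
  exact sub_le_self _ (sq_nonneg _)

theorem yy_V1 (hk : 0 < k) (m : C3) :
    2 * ‖(V1 n k m).1‖ * ‖(V1 n k m).2‖ = 2 * ‖(V2 n k m).1‖ * ‖(V2 n k m).2‖ := by
  simp only [V1, Prod.fst_swap, Prod.snd_swap, norm_V21 hk, norm_V22 hk, sw]
  ring

end Crest.Agent.X212.Tau19
end
end

-- ▼ part X212/Tau19/Tau

/-!
# X212 / Tau19, part Tau (helper19): the twist in a toric sphere of square `-2` or `-1`

* `Sph v a b a' n c k R` : rods `a | b | a'` with `a + a' = n b`, vertices at `c ∓ k² / 2`, nothing else on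
  `(c - R, c + R)`; `Sph.of_wd` for words;
* `S.Ψ T : C3 → X T v` identifies `Dm k R / S¹` with an open neighbourhood of the sphere;
* `S.dsc T F d` : descent of an invariant function, `cm_dsc`, `contMDiff_dsc`;
* `S.tau T hn hr : X T v ≃ₘ X T v` (`n e = 2`), the identity off the compact set `S.K T (rh k r) ⊆ T.disc v c (Iic r)`.
-/

set_option autoImplicit false
set_option linter.unusedSectionVars false

open Set Filter Topology Function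
open scoped ContDiff Manifold ComplexConjugate

noncomputable section

namespace Crest.Agent.X212.Tau19

open Crest.Agent.X212.Glue52 Crest.Agent.X212.Rod53

/-- a toric sphere of square `-n` (in the orientation of the bases `(a, b)`, `(b, a')`) -/
structure Sph (v : ℝ → Z2) (a b a' : Z2) (n : ℕ) (c k R : ℝ) : Prop where
  uni : Uni a b
  sum : a' = -a + (n : ℤ) • b
  pos : 0 < k
  lt : k ^ 2 / 2 < R
  left : ∀ x ∈ Ioo (c - R) (c + k ^ 2 / 2), x ∈ Jv v a b (c - k ^ 2 / 2)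
  right : ∀ x ∈ Ioo (c - k ^ 2 / 2) (c + R), x ∈ Jv v b a' (c + k ^ 2 / 2)

/-- the domain of the model -/
def Dm (k R : ℝ) : Set C3 := {m | Un m ∧ k ^ 2 / 2 * (1 + 2 * ‖m.2‖ ^ 2) < R}

/-- the value of `‖w‖²` on the ellipse with major semi-axis `r` -/
def rh (k r : ℝ) : ℝ := r / k ^ 2 - 1 / 2

theorem Jv_congr {v : ℝ → Z2} {a b α β : Z2} {c x : ℝ} (h : x ∈ Jv v a b c) (h1 : PM a α) (h2 : PM b β) :
    x ∈ Jv v α β c :=
  mem_Jv.2 ((mem_Jv.1 h).mono fun _ k => ⟨fun e => (k.1 e).trans h1, k.2.1, fun e => (k.2.2 e).trans h2⟩)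

theorem Sph.of_wd {s : ℤ → Z2} {i : ℤ} {a b a' : Z2} {n : ℕ} (hu : Uni a b) (h : a' = -a + (n : ℤ) • b)
    (h1 : PM (s (i - 1)) a) (h2 : PM (s i) b) (h3 : PM (s (i + 1)) a') :
    Sph (wd s) a b a' n (i + 1 / 2) 1 (3 / 2) := by
  have u2 : Uni b a' := by
    rw [h, Uni, dt_add_smul, dt_self, mul_zero, add_zero]
    exact hu.symm.neg_right
  have k1 : Uni (s (i - 1)) (s i) := (h2.uni (h1.uni hu).symm).symm
  have k2 : Uni (s (i + 1 - 1)) (s (i + 1)) := by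
    rw [add_sub_cancel_right]
    exact (h3.uni (h2.uni u2).symm).symm
  refine ⟨hu, h, one_pos, by norm_num, fun x hx => ?_, fun x hx => ?_⟩
  · rw [show (i : ℝ) + 1 / 2 - 1 ^ 2 / 2 = i by ring]
    exact Jv_congr (Ioo_subset_Jv k1 ⟨by linarith [hx.1], by linarith [hx.2]⟩) h1 h2
  · rw [show (i : ℝ) + 1 / 2 + 1 ^ 2 / 2 = (i + 1 : ℤ) by push_cast; ring]
    refine Jv_congr (Ioo_subset_Jv k2 ⟨?_, ?_⟩) (by rw [add_sub_cancel_right]; exact h2) h3 <;> push_cast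
    exacts [by linarith [hx.1], by linarith [hx.2]]

variable {n e : ℕ} {k R r ρ ε : ℝ} {m m' : C3}

theorem Dm.act (h : m ∈ Dm k R) (l : Circle) : act n l m ∈ Dm k R := ⟨h.1.act l, by rw [norm_act3]; exact h.2⟩

theorem Dm.tt (hρ : 0 < ρ) (hε : ε * ε = 1) (h : m ∈ Dm k R) : tt e ρ ε m ∈ Dm k R :=
  ⟨h.1.tt hρ hε, by rw [norm_tt]; exact h.2⟩

theorem Dm.sw (h : m ∈ Dm k R) : sw m ∈ Dm k R := ⟨h.1.sw, h.2⟩

theorem tmo_sw (m : C3) : tmo k (sw m) = -tmo k m := by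
  simp only [tmo, sw, Prod.fst_swap, Prod.snd_swap]
  ring

theorem tmo_lt (h : m ∈ Dm k R) : tmo k m < R := by
  refine lt_of_le_of_lt ?_ h.2
  have h1 : ‖m.1.1‖ ^ 2 - ‖m.1.2‖ ^ 2 ≤ 1 := by
    have := h.1
    unfold Un at this
    nlinarith [sq_nonneg ‖m.1.2‖]
  exact mul_le_mul_of_nonneg_left (mul_le_of_le_one_left (by positivity) h1) (by positivity)

theorem lt_tmo (hk : 0 < k) (h : Un m) (h1 : m.1.1 ≠ 0) (h2 : m.2 = 0 ∨ m.1.2 = 0) :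
    -(k ^ 2 / 2) < tmo k m := by
  have h3 : 0 < ‖m.1.1‖ ^ 2 := by positivity
  have h4 : 0 < k ^ 2 := by positivity
  unfold Un at h
  unfold tmo
  rcases h2 with e | e <;> rw [e, norm_zero] at *
  · nlinarith [mul_pos h4 h3]
  · have : 0 ≤ k ^ 2 / 2 * ((‖m.1.1‖ ^ 2 - 0 ^ 2) * (1 + 2 * ‖m.2‖ ^ 2)) := by
      rw [zero_pow two_ne_zero, sub_zero]; positivity
    linarith

theorem tmo_neg (hk : 0 < k) (h : Un m) (h1 : m.1.1 = 0) : tmo k m < 0 := by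
  have h3 : 0 < ‖m.1.2‖ ^ 2 := by have := h.ne h1; positivity
  rw [tmo, h1, norm_zero, zero_pow two_ne_zero, zero_sub, neg_mul, mul_neg, neg_lt_zero]
  positivity

theorem V21_ne (hk : 0 < k) (h1 : m.1.1 ≠ 0) : (V2 n k m).1 = 0 ↔ m.2 = 0 := by
  rw [← norm_eq_zero, norm_V21 hk]
  simp [hk.ne', h1]

theorem V22_ne (hk : 0 < k) : (V2 n k m).2 = 0 ↔ m.1.2 = 0 := by
  rw [← norm_eq_zero, norm_V22 hk]
  simp [hk.ne', (ch_pos m.2).ne']

theorem dir_V22 (hk : 0 < k) (h : m.1.2 ≠ 0) : dir (V2 n k m).2 = dir m.1.2 * (dir m.1.1)⁻¹ :=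
  (dir_pos_mul (mul_pos hk (ch_pos _)) _).trans (dir_mul_circle h _)

theorem rh_pos (hk : 0 < k) (hr : k ^ 2 / 2 < r) : 0 < rh k r := by
  rw [rh, sub_pos, lt_div_iff₀ (by positivity)]
  linarith

theorem le_rh (hk : 0 < k) {W : ℝ} : W ≤ rh k r ↔ k ^ 2 / 2 * (1 + 2 * W) ≤ r := by
  rw [rh, le_sub_iff_add_le, le_div_iff₀ (by positivity)]
  constructor <;> intro h <;> linarith

theorem isCompact_K (ρ : ℝ) : IsCompact {m : C3 | Un m ∧ ‖m.2‖ ^ 2 ≤ ρ} := by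
  refine Metric.isCompact_of_isClosed_isBounded
    ((isClosed_eq (f := fun m : C3 => ‖m.1.1‖ ^ 2 + ‖m.1.2‖ ^ 2) (by fun_prop) continuous_const).inter
      (isClosed_le (f := fun m : C3 => ‖m.2‖ ^ 2) (by fun_prop) continuous_const))
    ((Metric.isBounded_closedBall (x := (0 : C3)) (r := |ρ| + 1)).subset ?_)
  rintro m ⟨h1, h2⟩
  unfold Un at h1
  have := le_abs_self ρ
  have := abs_nonneg ρ
  rw [mem_closedBall_zero_iff, Prod.norm_def, Prod.norm_def, max_le_iff, max_le_iff]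
  refine ⟨⟨?_, ?_⟩, ?_⟩ <;> nlinarith [norm_nonneg m.1.1, norm_nonneg m.1.2, norm_nonneg m.2]

/-- `F` is the restriction of smooth germs along `D` -/
def SmD {E' H' M' : Type*} [NormedAddCommGroup E'] [NormedSpace ℝ E'] [TopologicalSpace H']
    (J : ModelWithCorners ℝ E' H') [TopologicalSpace M'] [ChartedSpace H' M'] (D : Set C3) (F : C3 → M') :
    Prop := ∀ m ∈ D, ∃ g, ContMDiffAt 𝓘(ℝ, C3) J ∞ g m ∧ ∀ᶠ y in 𝓝 m, y ∈ D → F y = g y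

section SmD

variable {E' H' M' : Type*} [NormedAddCommGroup E'] [NormedSpace ℝ E'] [TopologicalSpace H']
  {J : ModelWithCorners ℝ E' H'} [TopologicalSpace M'] [ChartedSpace H' M']
  {E H M : Type*} [NormedAddCommGroup E] [NormedSpace ℝ E] [TopologicalSpace H]
  {I : ModelWithCorners ℝ E H} [TopologicalSpace M] [ChartedSpace H M] {D : Set C3} {F : C3 → M'}

theorem SmD.of_cm (h : ∀ m ∈ D, ContMDiffAt 𝓘(ℝ, C3) J ∞ F m) : SmD J D F :=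
  fun m hm => ⟨F, h m hm, Eventually.of_forall fun _ _ => rfl⟩

theorem SmD.cm (h : SmD J D F) {s : M → C3} {x : M} (hs : ContMDiffAt I 𝓘(ℝ, C3) ∞ s x)
    (hD : ∀ᶠ y in 𝓝 x, s y ∈ D) : ContMDiffAt I J ∞ (fun y => F (s y)) x := by
  obtain ⟨g, g1, g2⟩ := h _ hD.self_of_nhds
  refine (g1.comp x hs).congr_of_eventuallyEq ?_
  filter_upwards [hD, hs.continuousAt.eventually g2] with y h1 h2 using h2 h1

theorem SmD.comp (h : SmD J D F) {t : C3 → C3} (ht : ContDiff ℝ ∞ t) (hD : MapsTo t D D) :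
    SmD J D fun y => F (t y) := fun m hm => by
  obtain ⟨g, g1, g2⟩ := h _ (hD hm)
  exact ⟨g ∘ t, g1.comp m ht.contMDiff.contMDiffAt,
    (ht.continuous.continuousAt.eventually g2).mono fun y h1 h2 => h1 (hD h2)⟩

theorem SmD.post (h : SmD J D F) {G : M' → M} (hG : ∀ m ∈ D, ContMDiffAt J I ∞ G (F m)) :
    SmD I D fun y => G (F y) := fun m hm => by
  obtain ⟨g, g1, g2⟩ := h m hm
  exact ⟨G ∘ g, ContMDiffAt.comp m (g2.self_of_nhds hm ▸ hG m hm) g1,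
    g2.mono fun y h1 h2 => congrArg G (h1 h2)⟩

theorem SmD.continuousOn (h : SmD J D F) : ContinuousOn F D := fun m hm => by
  obtain ⟨g, g1, g2⟩ := h m hm
  exact g1.continuousAt.continuousWithinAt.congr_of_eventuallyEq
    (eventually_nhdsWithin_iff.2 g2) (g2.self_of_nhds hm)

end SmD

variable {EN HN : Type} [NormedAddCommGroup EN] [NormedSpace ℝ EN] [FiniteDimensional ℝ EN]
  [TopologicalSpace HN] {IN : ModelWithCorners ℝ EN HN} [IN.Boundaryless]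
  {N : Type} [TopologicalSpace N] [ChartedSpace HN N] [IsManifold IN ∞ N] [T2Space N]

namespace Sph

variable {v : ℝ → Z2} {a b a' : Z2} {c : ℝ} (S : Sph v a b a' n c k R) (T : Tb IN N)
include S

theorem uni' : Uni b a' := by
  rw [S.sum, Uni, dt_add_smul, dt_self, mul_zero, add_zero]
  exact S.uni.symm.neg_right

theorem mem2 (h : m ∈ Dm k R) (h1 : m.1.1 ≠ 0) : V2 n k m ∈ Uv v b a' (c + k ^ 2 / 2) := by
  by_cases e : m.2 = 0 ∨ m.1.2 = 0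
  · refine Or.inr (S.right _ ?_)
    rw [tm_V2 S.pos c h.1]
    exact ⟨by linarith [lt_tmo S.pos h.1 h1 e], by linarith [tmo_lt h]⟩
  · exact Or.inl ⟨fun q => e (Or.inl ((V21_ne S.pos h1).1 q)), fun q => e (Or.inr ((V22_ne S.pos).1 q))⟩

theorem mem1 (h : m ∈ Dm k R) (h1 : m.1.2 ≠ 0) : V1 n k m ∈ Uv v a b (c - k ^ 2 / 2) := by
  by_cases e : m.2 = 0 ∨ m.1.1 = 0
  · refine Or.inr (S.left _ ?_)
    have h2 := lt_tmo (m := sw m) S.pos h.1.sw h1 e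
    have h3 := tmo_lt (Dm.sw h)
    rw [tmo_sw] at h2 h3
    rw [tm_V1 S.pos c h.1]
    exact ⟨by linarith, by linarith⟩
  · exact Or.inl ⟨fun q => e (Or.inr ((V22_ne (n := n) (m := sw m) S.pos).1 q)),
      fun q => e (Or.inl ((V21_ne (m := sw m) S.pos h1).1 q))⟩

open Classical in
/-- the model of the neighbourhood of the sphere -/
def Ψ (m : C3) : X T v :=
  if m.1.1 = 0 then T.vtx v S.uni (c - k ^ 2 / 2) (V1 n k m) else T.vtx v S.uni' (c + k ^ 2 / 2) (V2 n k m)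

theorem Ψ_2 (h : m.1.1 ≠ 0) : S.Ψ T m = T.vtx v S.uni' (c + k ^ 2 / 2) (V2 n k m) := if_neg h

theorem Ψ_1 (h : m ∈ Dm k R) (h2 : m.1.2 ≠ 0) : S.Ψ T m = T.vtx v S.uni (c - k ^ 2 / 2) (V1 n k m) := by
  by_cases h1 : m.1.1 = 0
  · exact if_pos h1
  have k1 : (V2 n k m).2 ≠ 0 := mt (V22_ne S.pos).1 h2
  have k2 : (V1 n k m).1 ≠ 0 := mt (V22_ne (n := n) (m := sw m) S.pos).1 h1
  have m1 := hL_mem (S.mem2 h h1) k1
  rw [S.Ψ_2 T h1, T.vtx_eq_L _ (S.mem2 h h1) k1, T.vtx_eq_R _ (S.mem1 h h2) k2]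
  apply T.nf_injective
  rw [T.nf_rod _ m1, T.nf_rod _ (hR_mem (S.mem1 h h2) k2)]
  refine (congrArg (fun t => T.Φr v b t _) S.sum).trans ?_
  rw [T.Φr_tw n m1, T.Φr_iv]
  congr 1
  have d1 : dir (V2 n k m).2 = _ := dir_V22 S.pos h2
  have d2 : dir (V1 n k m).1 = dir m.1.1 * (dir m.1.2)⁻¹ := dir_V22 (n := n) (m := sw m) S.pos h1
  have n1 := norm_V22 (n := n) S.pos m
  have n2 : ‖(V1 n k m).1‖ = k * ch m.2 * ‖m.1.1‖ := norm_V22 (n := n) S.pos (sw m)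
  have h3 : ((dir m.1.1 : Circle) : ℂ) ≠ 0 := Circle.coe_ne_zero _
  refine Prod.ext (Prod.ext ?_ ?_) ((tm_V2 S.pos c h.1).trans (tm_V1 S.pos c h.1).symm)
  · simp only [iv, tw, hL, hR, hyp, Prod.fst_swap, d1, d2, mul_inv, inv_inv, mul_comm]
  · simp only [iv, tw, hL, hR, hyp, Prod.fst_swap, Prod.snd_swap, d1, n1, n2]
    simp only [V1, V2, sw, Prod.fst_swap, Prod.snd_swap, zpow_natCast, Circle.coe_pow, Circle.coe_mul,
      Circle.coe_inv, mul_pow, inv_pow]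
    push_cast
    field_simp

theorem Ψ_act (l : Circle) (h : m ∈ Dm k R) : S.Ψ T (act n l m) = S.Ψ T m := by
  by_cases h1 : m.1.1 = 0
  · have h2 := h.1.ne h1
    rw [S.Ψ_1 T h h2, S.Ψ_1 T (Dm.act h l) (mul_ne_zero l.coe_ne_zero h2), V1_act l h2]
  · rw [S.Ψ_2 T h1, S.Ψ_2 T (m := act n l m) (mul_ne_zero l.coe_ne_zero h1), V2_act l h1]

theorem time_Ψ (h : m ∈ Dm k R) : T.time v (S.Ψ T m) = c + tmo k m := by
  by_cases h1 : m.1.1 = 0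
  · rw [S.Ψ_1 T h (h.1.ne h1), T.time_vtx _ (S.mem1 h (h.1.ne h1)), tm_V1 S.pos c h.1]
  · rw [S.Ψ_2 T h1, T.time_vtx _ (S.mem2 h h1), tm_V2 S.pos c h.1]

theorem yy_Ψ (h : m ∈ Dm k R) : T.yy v (S.Ψ T m) = 2 * ‖(V2 n k m).1‖ * ‖(V2 n k m).2‖ := by
  by_cases h1 : m.1.1 = 0
  · rw [S.Ψ_1 T h (h.1.ne h1), T.yy_vtx _ (S.mem1 h (h.1.ne h1)), yy_V1 S.pos]
  · rw [S.Ψ_2 T h1, T.yy_vtx _ (S.mem2 h h1)]

theorem Ψ_mem_tor (h : m ∈ Dm k R) : S.Ψ T m ∈ T.tor v := by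
  by_cases h1 : m.1.1 = 0
  · rw [S.Ψ_1 T h (h.1.ne h1)]
    exact T.vtx_mem_tor _ (S.mem1 h (h.1.ne h1))
  · rw [S.Ψ_2 T h1]
    exact T.vtx_mem_tor _ (S.mem2 h h1)

theorem rr_Ψ (h : m ∈ Dm k R) : T.rr v c (S.Ψ T m) ≤ k ^ 2 / 2 * (1 + 2 * ‖m.2‖ ^ 2) := by
  rw [Tb.rr, S.time_Ψ T h, S.yy_Ψ T h, add_sub_cancel_left]
  exact Real.sqrt_le_iff.2 ⟨by positivity, rad_le S.pos h.1⟩

/-- the fibres of `Ψ` are the orbits -/
theorem orbit (h : m ∈ Dm k R) (h' : m' ∈ Dm k R) (e : S.Ψ T m = S.Ψ T m') : ∃ l, m' = act n l m := by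
  have key : ∀ d d' : Circle, act n d⁻¹ m = act n d'⁻¹ m' → ∃ l, m' = act n l m := fun d d' q =>
    ⟨d' * d⁻¹, by rw [← act_act, q, act_act, mul_inv_cancel, act_one]⟩
  have t : tmo k m = tmo k m' := add_left_cancel
    ((S.time_Ψ T h).symm.trans ((congrArg _ e).trans (S.time_Ψ T h')))
  have pos : ∀ {y : C3}, Un y → y.1.2 = 0 → 0 < tmo k y := fun {y} q1 q2 => by
    have := tmo_neg (m := sw y) S.pos q1.sw q2
    rwa [tmo_sw, neg_lt_zero] at this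
  by_cases h1 : m.1.1 ≠ 0 ∧ m'.1.1 ≠ 0
  · rw [S.Ψ_2 T h1.1, S.Ψ_2 T h1.2] at e
    have := (T.vtx v _ _).injOn (S.mem2 h h1.1) (S.mem2 h' h1.2) e
    exact key _ _ ((s2_V2 S.pos h.1 h1.1).symm.trans ((congrArg _ this).trans (s2_V2 S.pos h'.1 h1.2)))
  · have h2 : m.1.2 ≠ 0 ∧ m'.1.2 ≠ 0 := by
      rcases not_and_or.1 h1 with q | q <;> rw [not_not] at q
      · exact ⟨h.1.ne q, fun q' => by linarith [tmo_neg S.pos h.1 q, pos h'.1 q']⟩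
      · exact ⟨fun q' => by linarith [tmo_neg S.pos h'.1 q, pos h.1 q'], h'.1.ne q⟩
    rw [S.Ψ_1 T h h2.1, S.Ψ_1 T h' h2.2] at e
    have := (T.vtx v _ _).injOn (S.mem1 h h2.1) (S.mem1 h' h2.2) e
    exact key _ _ ((s1_V1 S.pos h.1 h2.1).symm.trans ((congrArg _ this).trans (s1_V1 S.pos h'.1 h2.2)))

theorem smD : SmD (𝓡 4) (Dm k R) (S.Ψ T) := fun m h => by
  by_cases h1 : m.1.1 = 0
  · have h2 := h.1.ne h1
    refine ⟨_, (ld_pd (T.vtx v S.uni _) (S.mem1 h h2)).contMDiffAt.comp m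
      (contDiffAt_V1 n k h2).contMDiffAt, ?_⟩
    filter_upwards [(isOpen_ne.preimage (continuous_snd.comp continuous_fst)).mem_nhds h2] with y q1 q2
    exact S.Ψ_1 T q2 q1
  · refine ⟨_, (ld_pd (T.vtx v S.uni' _) (S.mem2 h h1)).contMDiffAt.comp m
      (contDiffAt_V2 n k h1).contMDiffAt, ?_⟩
    filter_upwards [(isOpen_ne.preimage (continuous_fst.comp continuous_fst)).mem_nhds h1] with y q1 _
    exact S.Ψ_2 T q1

theorem sec2 (h : m ∈ Dm k R) (h1 : m.1.1 ≠ 0) : ContDiffAt ℝ ∞ (s2 k) (V2 n k m) ∧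
    ∀ᶠ Z in 𝓝 (V2 n k m), s2 k Z ∈ Dm k R ∧ (s2 k Z).1.1 ≠ 0 ∧ V2 n k (s2 k Z) = Z := by
  have h2 : 0 < pp k (V2 n k m) := by rw [pp_V2 S.pos h.1]; positivity
  have h3 := contDiffAt_s2 S.pos h2
  have h4 : ContinuousAt (fun Z => k ^ 2 / 2 * (1 + 2 * ‖(s2 k Z).2‖ ^ 2)) (V2 n k m) :=
    continuousAt_const.mul (continuousAt_const.add (continuousAt_const.mul (h3.continuousAt.snd.norm.pow 2)))
  refine ⟨h3, ?_⟩
  filter_upwards [(continuous_pp k).continuousAt.eventually (lt_mem_nhds h2),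
    h4.eventually (gt_mem_nhds (by rw [s2_V2 S.pos h.1 h1]; exact (Dm.act h _).2 :
      k ^ 2 / 2 * (1 + 2 * ‖(s2 k (V2 n k m)).2‖ ^ 2) < R))] with Z q1 q2
  exact ⟨⟨un_s2 S.pos q1, q2⟩, s2_ne q1, V2_s2 S.pos q1⟩

/-- smooth local sections -/
theorem sec (h : m ∈ Dm k R) : ∃ s : X T v → C3, ContMDiffAt (𝓡 4) 𝓘(ℝ, C3) ∞ s (S.Ψ T m) ∧
    ∀ᶠ x in 𝓝 (S.Ψ T m), s x ∈ Dm k R ∧ S.Ψ T (s x) = x := by
  have key : ∀ (φ : ℂ × ℂ → X T v) (Z : ℂ × ℂ) (s : ℂ × ℂ → C3), IsLocalDiffeomorphAt IV (𝓡 4) ∞ φ Z →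
      ContDiffAt ℝ ∞ s Z → (∀ᶠ W in 𝓝 Z, s W ∈ Dm k R ∧ S.Ψ T (s W) = φ W) →
      ∃ s : X T v → C3, ContMDiffAt (𝓡 4) 𝓘(ℝ, C3) ∞ s (φ Z) ∧
        ∀ᶠ x in 𝓝 (φ Z), s x ∈ Dm k R ∧ S.Ψ T (s x) = x := by
    intro φ Z s h1 h2 h3
    have h0 : h1.localInverse (φ Z) = Z := h1.localInverse_left_inv h1.localInverse_mem_target
    have c := h1.localInverse_contMDiffAt
    refine ⟨s ∘ h1.localInverse, ContMDiffAt.comp _ (by rw [h0]; exact h2.contMDiffAt) c, ?_⟩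
    filter_upwards [c.continuousAt.eventually (h0.symm ▸ h3), h1.localInverse_eventuallyEq_right] with x q1 q2
    exact ⟨q1.1, q1.2.trans q2⟩
  by_cases h1 : m.1.1 = 0
  · have h2 := h.1.ne h1
    obtain ⟨q1, q2⟩ := S.sec2 (Dm.sw h) h2
    have sc : Tendsto Prod.swap (𝓝 (V1 n k m)) (𝓝 (V2 n k (sw m))) := continuous_swap.continuousAt
    rw [S.Ψ_1 T h h2]
    refine key _ _ (s1 k) (ld_pd _ (S.mem1 h h2)) (contDiff_sw.contDiffAt.comp _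
      (ContDiffAt.comp (V1 n k m) q1 (contDiffAt_snd.prodMk contDiffAt_fst))) ?_
    filter_upwards [sc.eventually q2] with W q
    refine ⟨Dm.sw q.1, ?_⟩
    exact (S.Ψ_1 T (Dm.sw q.1) q.2.1).trans (congrArg _ (congrArg Prod.swap q.2.2))
  · obtain ⟨q1, q2⟩ := S.sec2 h h1
    rw [S.Ψ_2 T h1]
    refine key _ _ (s2 k) (ld_pd _ (S.mem2 h h1)) q1 (q2.mono fun W q => ⟨q.1, ?_⟩)
    rw [S.Ψ_2 T q.2.1, q.2.2]

theorem isOpen_image : IsOpen (S.Ψ T '' Dm k R) := isOpen_iff_mem_nhds.2 <| by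
  rintro _ ⟨m, h, rfl⟩
  obtain ⟨s, -, hs⟩ := S.sec T h
  exact hs.mono fun x q => ⟨_, q.1, q.2⟩

open Classical in
/-- descent of an invariant function -/
def dsc {Z : Type*} (F : C3 → Z) (d : X T v → Z) (x : X T v) : Z :=
  if h : x ∈ S.Ψ T '' Dm k R then F h.choose else d x

theorem dsc_Ψ {Z : Type*} {F : C3 → Z} (d : X T v → Z) (hF : ∀ l, ∀ m ∈ Dm k R, F (act n l m) = F m)
    (h : m ∈ Dm k R) : S.dsc T F d (S.Ψ T m) = F m := by
  have q : S.Ψ T m ∈ S.Ψ T '' Dm k R := ⟨m, h, rfl⟩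
  obtain ⟨l, e⟩ := S.orbit T h q.choose_spec.1 q.choose_spec.2.symm
  rw [dsc, dif_pos q, e, hF l m h]

theorem dsc_not {Z : Type*} (F : C3 → Z) (d : X T v → Z) {x : X T v} (h : x ∉ S.Ψ T '' Dm k R) :
    S.dsc T F d x = d x := dif_neg h

/-- the compact core `‖w‖² ≤ ρ` -/
def K (ρ : ℝ) : Set (X T v) := S.Ψ T '' {m | Un m ∧ ‖m.2‖ ^ 2 ≤ ρ}

theorem K_dom (hr : r < R) : {m : C3 | Un m ∧ ‖m.2‖ ^ 2 ≤ rh k r} ⊆ Dm k R :=
  fun _ h => ⟨h.1, ((le_rh S.pos).1 h.2).trans_lt hr⟩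

theorem isCompact_K (hr : r < R) : IsCompact (S.K T (rh k r)) :=
  (Tau19.isCompact_K _).image_of_continuousOn ((S.smD T).continuousOn.mono (S.K_dom hr))

theorem K_subset (hr : r < R) : S.K T (rh k r) ⊆ T.disc v c (Iic r) := by
  rintro _ ⟨m, h, rfl⟩
  exact ⟨S.Ψ_mem_tor T (S.K_dom hr h), (S.rr_Ψ T (S.K_dom hr h)).trans ((le_rh S.pos).1 h.2)⟩

theorem Ψ_mem_K (hr : r < R) (h : m ∈ Dm k R) : S.Ψ T m ∈ S.K T (rh k r) ↔ ‖m.2‖ ^ 2 ≤ rh k r := by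
  refine ⟨fun ⟨y, h1, h2⟩ => ?_, fun q => ⟨m, ⟨h.1, q⟩, rfl⟩⟩
  obtain ⟨l, rfl⟩ := S.orbit T (S.K_dom hr h1) h h2
  rw [norm_act3]
  exact h1.2

theorem dsc_off {Z : Type*} {F : C3 → Z} {d : X T v → Z} (hF : ∀ l, ∀ m ∈ Dm k R, F (act n l m) = F m)
    (hd : ∀ m ∈ Dm k R, ρ < ‖m.2‖ ^ 2 → F m = d (S.Ψ T m)) {x : X T v} (hx : x ∉ S.K T ρ) :
    S.dsc T F d x = d x := by
  by_cases h : x ∈ S.Ψ T '' Dm k R
  · obtain ⟨m, h, rfl⟩ := h
    rw [S.dsc_Ψ T d hF h, hd m h (lt_of_not_ge fun q => hx ⟨m, ⟨h.1, q⟩, rfl⟩)]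
  · exact S.dsc_not T F d h

section Sm

variable {E' H' M' : Type*} [NormedAddCommGroup E'] [NormedSpace ℝ E'] [TopologicalSpace H']
  {J : ModelWithCorners ℝ E' H'} [TopologicalSpace M'] [ChartedSpace H' M'] {F : C3 → M'} {d : X T v → M'}

theorem cm_dsc (hF : ∀ l, ∀ m ∈ Dm k R, F (act n l m) = F m) (hs : SmD J (Dm k R) F) (h : m ∈ Dm k R) :
    ContMDiffAt (𝓡 4) J ∞ (S.dsc T F d) (S.Ψ T m) := by
  obtain ⟨s, h1, h2⟩ := S.sec T h
  refine (hs.cm h1 (h2.mono fun _ q => q.1)).congr_of_eventuallyEq (h2.mono fun x q => ?_)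
  exact (congrArg _ q.2).symm.trans (S.dsc_Ψ T d hF q.1)

theorem cm_dsc' (hr : r < R) (hF : ∀ l, ∀ m ∈ Dm k R, F (act n l m) = F m) (hs : SmD J (Dm k R) F)
    (hd : ∀ m ∈ Dm k R, rh k r < ‖m.2‖ ^ 2 → F m = d (S.Ψ T m)) {x : X T v}
    (hx : x ∉ S.K T (rh k r) → ContMDiffAt (𝓡 4) J ∞ d x) : ContMDiffAt (𝓡 4) J ∞ (S.dsc T F d) x := by
  by_cases h : x ∈ S.K T (rh k r)
  · obtain ⟨m, h, rfl⟩ := h
    exact S.cm_dsc T hF hs (S.K_dom hr h)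
  · refine (hx h).congr_of_eventuallyEq ?_
    filter_upwards [(S.isCompact_K T hr).isClosed.isOpen_compl.mem_nhds h] with y hy
    exact S.dsc_off T hF hd hy

end Sm

/-- the twist as a map -/
def tf (e : ℕ) (ρ ε : ℝ) : X T v → X T v := S.dsc T (fun m => S.Ψ T (tt e ρ ε m)) id

theorem tf_inv (hn : n * e = 2) (hρ : 0 < ρ) (hε : ε * ε = 1) (l : Circle) (m : C3) (h : m ∈ Dm k R) :
    S.Ψ T (tt e ρ ε (act n l m)) = S.Ψ T (tt e ρ ε m) := by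
  rw [tt_act hn, S.Ψ_act T _ (Dm.tt hρ hε h)]

theorem tf_Ψ (hn : n * e = 2) (hρ : 0 < ρ) (hε : ε * ε = 1) (h : m ∈ Dm k R) :
    S.tf T e ρ ε (S.Ψ T m) = S.Ψ T (tt e ρ ε m) := S.dsc_Ψ T id (S.tf_inv T hn hρ hε) h

theorem tf_large (hn : n * e = 2) (hρ : 0 < ρ) (m : C3) (h : m ∈ Dm k R) (q : ρ < ‖m.2‖ ^ 2) :
    S.Ψ T (tt e ρ ε m) = id (S.Ψ T m) := by rw [tt_large hn hρ q.le, S.Ψ_act T _ h, id]

theorem tf_off (hn : n * e = 2) (hρ : 0 < ρ) (hε : ε * ε = 1) {x : X T v} (hx : x ∉ S.K T ρ) :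
    S.tf T e ρ ε x = x := S.dsc_off T (S.tf_inv T hn hρ hε) (S.tf_large T hn hρ) hx

theorem tf_tf (hn : n * e = 2) (hρ : 0 < ρ) (hε : ε * ε = 1) (x : X T v) :
    S.tf T e ρ (-ε) (S.tf T e ρ ε x) = x := by
  by_cases h : x ∈ S.Ψ T '' Dm k R
  · obtain ⟨m, h, rfl⟩ := h
    rw [S.tf_Ψ T hn hρ hε h, S.tf_Ψ T hn hρ (by rw [neg_mul_neg, hε]) (Dm.tt hρ hε h), tt_tt hρ hε]
  · rw [show S.tf T e ρ ε x = x from S.dsc_not T _ _ h]
    exact S.dsc_not T _ _ h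

theorem contMDiff_tf (hn : n * e = 2) (h1 : k ^ 2 / 2 < r) (h2 : r < R) (hε : ε * ε = 1) :
    ContMDiff (𝓡 4) (𝓡 4) ∞ (S.tf T e (rh k r) ε) := fun _ =>
  have hρ := rh_pos S.pos h1
  S.cm_dsc' T h2 (S.tf_inv T hn hρ hε) ((S.smD T).comp (contDiff_tt e hρ ε) fun _ => Dm.tt hρ hε)
    (S.tf_large T hn hρ) fun _ => contMDiffAt_id

/-- **the twist**: the Dehn twist (`n = 2`, `e = 1`), the reflection in an exceptional sphere (`n = 1`, `e = 2`) -/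
def tau (hn : n * e = 2) (hr : r ∈ Ioo (k ^ 2 / 2) R) : X T v ≃ₘ^∞⟮𝓡 4, 𝓡 4⟯ X T v :=
  diffeoOf (S.tf T e (rh k r) 1) (S.tf T e (rh k r) (-1)) (S.contMDiff_tf T hn hr.1 hr.2 (one_mul 1))
    (S.contMDiff_tf T hn hr.1 hr.2 (by norm_num)) (S.tf_tf T hn (rh_pos S.pos hr.1) (one_mul 1))
    fun x => by simpa using S.tf_tf T hn (rh_pos S.pos hr.1) (ε := -1) (by norm_num) x

variable (hn : n * e = 2) (hr : r ∈ Ioo (k ^ 2 / 2) R)

theorem tau_Ψ (h : m ∈ Dm k R) : S.tau T hn hr (S.Ψ T m) = S.Ψ T (tt e (rh k r) 1 m) :=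
  S.tf_Ψ T hn (rh_pos S.pos hr.1) (one_mul 1) h

theorem tau_symm_Ψ (h : m ∈ Dm k R) : (S.tau T hn hr).symm (S.Ψ T m) = S.Ψ T (tt e (rh k r) (-1) m) :=
  S.tf_Ψ T hn (rh_pos S.pos hr.1) (by norm_num) h

theorem tau_off {x : X T v} (hx : x ∉ S.K T (rh k r)) : S.tau T hn hr x = x :=
  S.tf_off T hn (rh_pos S.pos hr.1) (one_mul 1) hx

theorem tau_off_disc {x : X T v} (hx : x ∉ T.disc v c (Iic r)) : S.tau T hn hr x = x :=
  S.tau_off T hn hr fun q => hx (S.K_subset T hr.2 q)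

theorem tau_mem_K {x : X T v} : S.tau T hn hr x ∈ S.K T (rh k r) ↔ x ∈ S.K T (rh k r) := by
  refine ⟨fun h => by_contra fun q => q (S.tau_off T hn hr q ▸ h), fun h => by_contra fun q => ?_⟩
  exact q (((S.tau T hn hr).injective (S.tau_off T hn hr q)).symm ▸ h)

/-- a set that contains the core or is disjoint from it is preserved -/
theorem tau_mem {A : Set (X T v)} (hA : S.K T (rh k r) ⊆ A ∨ Disjoint (S.K T (rh k r)) A) {x : X T v} :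
    S.tau T hn hr x ∈ A ↔ x ∈ A := by
  by_cases h : x ∈ S.K T (rh k r)
  · have h' := (S.tau_mem_K T hn hr).2 h
    rcases hA with q | q
    · exact iff_of_true (q h') (q h)
    · exact iff_of_false (disjoint_left.1 q h') (disjoint_left.1 q h)
  · rw [S.tau_off T hn hr h]

end Sph

end Crest.Agent.X212.Tau19
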